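import Vale.Agent.P307.H582.Union

/-! P307 (helper582): abstract elementary classes with free amalgamation. -/

universe u

namespace Vale.Agent.P307.H582

open FirstOrder Language Cardinal Structure Set Vale.Agent.P307.Gr

variable {L : Language.{u, u}}

/-- `N` is the free union of its substructures `S` and `T`: every point lies in `S` or `T`, and
every related tuple lies in `S` or in `T`. -/
def IsFreeUnion {N : Type u} [L.Structure N] (S T : L.Substructure N) : Prop :=
  (∀ x : N, x ∈ S ∨ x ∈ T) ∧ ∀ (n : ℕ) (P : L.Relations n) (v : Fin n → N),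
    RelMap P v → (∀ k, v k ∈ S) ∨ ∀ k, v k ∈ T

/-- `K` has free amalgamation: the free union of two members over a common strong substructure
is a member, and both are strong in it. -/
def HasFreeAmalgams (K : AEC L) : Prop :=
  ∀ (N : Type u) [L.Structure N] (S T : L.Substructure N), IsFreeUnion S T →
    K.le ((S ⊓ T).comap S.subtype.toHom) → K.le ((S ⊓ T).comap T.subtype.toHom) → K.le S

/-- free amalgamation inside a large structure -/
theorem HasFreeAmalgams.sle {K : AEC L} (h : HasFreeAmalgams K) {N : Type u} [L.Structure N]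
    {S T U : L.Substructure N} (hS : S ≤ U) (hT : T ≤ U) (h1 : ∀ x ∈ U, x ∈ S ∨ x ∈ T)
    (h2 : ∀ (n : ℕ) (P : L.Relations n) (v : Fin n → N), (∀ k, v k ∈ U) → RelMap P v →
      (∀ k, v k ∈ S) ∨ ∀ k, v k ∈ T) (h3 : K.sle (S ⊓ T) S) (h4 : K.sle (S ⊓ T) T) :
    K.sle S U := by
  rw [AEC.sle_iff hS]
  have e : S.comap U.subtype.toHom ⊓ T.comap U.subtype.toHom =
      (S ⊓ T).comap U.subtype.toHom := rfl
  refine h U (S.comap U.subtype.toHom) (T.comap U.subtype.toHom) ⟨fun x => h1 x.1 x.2, ?_⟩ ?_ ?_
  · intro n P v hv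
    exact h2 n P (fun k => (v k).1) (fun k => (v k).2) hv
  · rw [← AEC.sle_iff inf_le_left, e]
    exact (AEC.sle_comap_subtype (inf_le_left.trans hS) hS).2 h3
  · rw [← AEC.sle_iff inf_le_right, e]
    exact (AEC.sle_comap_subtype (inf_le_left.trans hS) hT).2 h4

section

variable [L.IsRelational] {R E V : Type u} [L.Structure (R ⊕ E)]

variable (L R E) in
/-- the base as a substructure -/
def baseSub : L.Substructure (R ⊕ E) where
  carrier := range Sum.inl
  fun_mem f := isEmptyElim f

variable (L R E) in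
/-- the embedding of the `i`-th copy -/
def cpEmb (i : V) : (R ⊕ E) ↪[L] Am R E V where
  toFun := Am.cp i
  inj' := by
    intro x y h
    have := congrArg Am.proj h
    rwa [Am.proj_cp, Am.proj_cp] at this
  map_fun' f := isEmptyElim f
  map_rel' P v := Am.relMap_cp i P v

theorem map_top (i : V) : (⊤ : L.Substructure (R ⊕ E)).map (cpEmb L R E i).toHom =
    Am.sub L R E {i} := by
  ext x
  constructor
  · rintro ⟨y, -, rfl⟩ j e he
    rcases y with r | a
    · cases he
    · cases he
      rfl
  · intro hx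
    rcases x with r | ⟨j, e⟩
    · exact ⟨Sum.inl r, trivial, rfl⟩
    · have hj : j = i := hx j e rfl
      subst hj
      exact ⟨Sum.inr e, trivial, rfl⟩

theorem map_base (i : V) : (baseSub L R E).map (cpEmb L R E i).toHom = Am.sub L R E ∅ := by
  ext x
  constructor
  · rintro ⟨_, ⟨r, rfl⟩, rfl⟩ j e he
    cases he
  · intro hx
    rcases x with r | ⟨j, e⟩
    · exact ⟨Sum.inl r, ⟨r, rfl⟩, rfl⟩
    · exact absurd (hx j e rfl) (Set.notMem_empty _)

theorem sle_base {K : AEC L} (h : K.le (baseSub L R E)) (i : V) :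
    K.sle (Am.sub L R E (∅ : Set V)) (Am.sub L R E {i}) := by
  rw [← map_top i, ← map_base i, AEC.sle_map]
  exact (AEC.sle_top (K.mem_of_le _ h).2).2 h

theorem sle_insert {K : AEC L} (hK : HasFreeAmalgams K) {W : Set V} {i : V} (hi : i ∉ W)
    (h1 : K.sle (Am.sub L R E (∅ : Set V)) (Am.sub L R E W))
    (h2 : K.sle (Am.sub L R E (∅ : Set V)) (Am.sub L R E {i})) :
    K.sle (Am.sub L R E W) (Am.sub L R E (insert i W)) := by
  have e : Am.sub L R E W ⊓ Am.sub L R E {i} = Am.sub L R E (∅ : Set V) := by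
    apply le_antisymm
    · rintro x ⟨hx1, hx2⟩ j a hj
      have hji : j = i := hx2 j a hj
      subst hji
      exact absurd (hx1 j a hj) hi
    · exact le_inf (Am.sub_mono (empty_subset _)) (Am.sub_mono (empty_subset _))
  refine hK.sle (T := Am.sub L R E {i}) (Am.sub_mono (subset_insert _ _))
    (Am.sub_mono (singleton_subset_iff.2 (mem_insert _ _))) ?_ ?_ ?_ ?_
  · intro x hx
    rcases x with r | ⟨j, a⟩
    · refine Or.inl fun j a hj => ?_
      cases hj
    · rcases hx j a rfl with h | h
      · refine Or.inr fun j' a' hj' => ?_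
        cases hj'
        exact h
      · refine Or.inl fun j' a' hj' => ?_
        cases hj'
        exact h
  · intro n P v hv hP
    have hok := ((Am.relMap_iff P v).1 hP).2
    by_cases hex : ∃ k a, v k = (Sum.inr (i, a) : Am R E V)
    · obtain ⟨k, a, hk⟩ := hex
      refine Or.inr fun m j b hm => ?_
      have h3 := hok k m
      rw [hk, hm, Am.ok_inr] at h3
      exact h3.symm
    · refine Or.inl fun k j a hj => ?_
      rcases hv k j a hj with h | h
      · subst h
        exact absurd ⟨k, a, hj⟩ hex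
      · exact h
  · rwa [e]
  · rwa [e]

theorem sle_Iic {K : AEC L} (hK : HasFreeAmalgams K) (hb : K.le (baseSub L R E))
    [LinearOrder V] [WellFoundedLT V] (i : V) :
    K.sle (Am.sub L R E (∅ : Set V)) (Am.sub L R E (Iic i)) ∧
      ∀ j, j ≤ i → K.sle (Am.sub L R E (Iic j)) (Am.sub L R E (Iic i)) := by
  induction i using WellFoundedLT.induction with
  | ind i ih =>
    have h0 := sle_base hb i
    have key : K.sle (Am.sub L R E (∅ : Set V)) (Am.sub L R E (Iio i)) ∧
        ∀ j, j < i → K.sle (Am.sub L R E (Iic j)) (Am.sub L R E (Iio i)) := by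
      by_cases hne : (Iio i).Nonempty
      · have hne' : Nonempty (Iio i) := hne.to_subtype
        have e : (⨆ k : Iio i, Am.sub L R E (Iic k.1)) = Am.sub L R E (Iio i) := by
          apply le_antisymm
          · exact iSup_le fun k => Am.sub_mono fun x hx => lt_of_le_of_lt hx k.2
          · intro x hx
            rcases x with r | ⟨j, a⟩
            · obtain ⟨j, hj⟩ := hne
              refine (le_iSup (fun k : Iio i => Am.sub L R E (Iic k.1)) ⟨j, hj⟩) ?_
              intro j' a' h
              cases h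
            · refine (le_iSup (fun k : Iio i => Am.sub L R E (Iic k.1)) ⟨j, hx j a rfl⟩) ?_
              intro j' a' h
              cases h
              exact le_rfl
        have h1 := AEC.sle_chain (K := K) (fun k : Iio i => Am.sub L R E (Iic k.1))
          (fun j k hjk => (ih k.1 k.2).2 j.1 hjk)
        rw [e] at h1
        refine ⟨?_, fun j hj => h1 ⟨j, hj⟩⟩
        obtain ⟨j, hj⟩ := hne
        exact (ih j hj).1.trans (h1 ⟨j, hj⟩)
      · rw [not_nonempty_iff_eq_empty] at hne
        rw [hne]
        refine ⟨AEC.sle.coh le_rfl h0 h0, fun j hj => ?_⟩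
        have : j ∈ (∅ : Set V) := hne ▸ hj
        exact absurd this (Set.notMem_empty _)
    have h1 := sle_insert hK (W := Iio i) (i := i) (lt_irrefl i) key.1 h0
    have e2 : insert i (Iio i) = Iic i := Set.Iio_insert
    rw [e2] at h1
    refine ⟨key.1.trans h1, fun j hj => ?_⟩
    rcases hj.lt_or_eq with h | h
    · exact (key.2 j h).trans h1
    · subst h
      have h2 := key.1.trans h1
      exact ⟨le_rfl, by
        have h3 := AEC.Emb.of_equiv (K := K) (Language.Equiv.refl L (Am.sub L R E (Iic j)))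
          h2.mem_right
        exact h3⟩

theorem mem_am {K : AEC L} (hK : HasFreeAmalgams K) (hb : K.le (baseSub L R E))
    [LinearOrder V] [WellFoundedLT V] [Nonempty V] : K.mem (Am R E V) := by
  have h := AEC.sle_chain (K := K) (fun k : V => Am.sub L R E (Iic k))
    (fun j k hjk => (sle_Iic hK hb k).2 j hjk) (Classical.arbitrary V)
  have e : (⨆ k : V, Am.sub L R E (Iic k)) = ⊤ := by
    rw [eq_top_iff]
    intro x _
    rcases x with r | ⟨j, a⟩
    · refine (le_iSup (fun k : V => Am.sub L R E (Iic k)) (Classical.arbitrary V)) ?_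
      intro j' a' h
      cases h
    · refine (le_iSup (fun k : V => Am.sub L R E (Iic k)) j) ?_
      intro j' a' h
      cases h
      exact le_rfl
  rw [e] at h
  exact K.mem_iso Substructure.topEquiv h.mem_right

end

/-- A class with free amalgamation. -/
theorem fgen_of_amalgams [L.IsRelational] {K : AEC L} {l κ : Cardinal.{u}}
    (hK : K.IsLS l) (hfree : HasFreeAmalgams K) (hκ : muF l ≤ κ) (hcat : K.CategoricalIn κ) :
    FGen K (muF l) := by
  classical
  obtain ⟨M, strM, hM, hMκ⟩ := hcat.1
  have hl := hK.1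
  have hlκ : l < κ := (lt_muF l).trans_le hκ
  have hκ0 : ℵ₀ < κ := hl.trans_lt hlκ
  have hMne : Nonempty M := by
    rw [← mk_ne_zero_iff, hMκ]
    exact (aleph0_pos.trans hκ0).ne'
  obtain ⟨S, hS1, hS2, hS3⟩ := exists_small hK hM
  obtain ⟨x, hx⟩ : ∃ x : M, x ∉ S := by
    by_contra hcon
    push Not at hcon
    have h1 : #M ≤ #S := mk_le_of_injective (f := fun x : M => (⟨x, hcon x⟩ : S))
      fun x y h => congrArg Subtype.val h
    rw [hMκ] at h1
    exact absurd (h1.trans hS3) (not_le.2 hlκ)
  obtain ⟨T, hT1, hT2, hT3⟩ := hK.2.2 M hM (insert x (S : Set M))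
  have hT3' : #T ≤ l := by
    refine hT3.trans (Cardinal.add_le_of_le hl ?_ (_root_.le_refl _))
    refine (mk_insert_le).trans (Cardinal.add_le_of_le hl hS3 (one_le_aleph0.trans hl))
  have hST : S ≤ T := fun y hy => hT2 (Or.inr hy)
  have h1 := (AEC.sle_iff hST).1 (AEC.sle_of_le_le hST hS1 hT1)
  -- the structure on `R ⊕ E`
  let s : Set T := {y | y.1 ∈ S}
  let e := (Equiv.Set.sumCompl s).symm
  letI str : L.Structure (s ⊕ (sᶜ : Set T)) := e.inducedStructure
  let f : T ≃[L] (s ⊕ (sᶜ : Set T)) := e.inducedStructureEquiv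
  have h2 := K.le_iso f _ h1
  have h3 : (S.comap T.subtype.toHom).map f.toHom = baseSub L s (sᶜ : Set T) := by
    ext z
    constructor
    · rintro ⟨y, hy, rfl⟩
      exact ⟨⟨y, hy⟩, (Equiv.Set.sumCompl_symm_apply_of_mem hy).symm⟩
    · rintro ⟨r, rfl⟩
      exact ⟨r.1, r.2, Equiv.Set.sumCompl_symm_apply_of_mem r.2⟩
  rw [h3] at h2
  have hVne : Nonempty κ.ord.ToType := by
    rw [← mk_ne_zero_iff, mk_ord_toType]
    exact (aleph0_pos.trans hκ0).ne'
  have hmem : K.mem (Am s (sᶜ : Set T) κ.ord.ToType) := mem_am hfree h2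
  haveI : Nonempty (sᶜ : Set T) := ⟨⟨⟨x, hT2 (Or.inl rfl)⟩, hx⟩⟩
  exact fgen_of_mem hK hκ hcat (((mk_set_le _).trans hT3').trans_lt (lt_muF l))
    (((mk_set_le _).trans hT3').trans_lt (lt_muF l)) (mk_ord_toType κ) hmem

end Vale.Agent.P307.H582
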