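import Vale.Agent.P307.H582.RelDefs
import Vale.Agent.P307.H582.Amalg

/-! P307 (helper582): free amalgams of copies, intrinsically. -/

universe u

namespace Vale.Agent.P307.H582

open FirstOrder Language Cardinal Structure Set Vale.Agent.P307.Gr

variable {L : Language.{u, u}}

/-- the data of a free amalgam -/
structure FA {A : Type u} [L.Structure A] (R : Set A) (V M : Type u) [L.Structure M]
    (f : V → (A ↪[L] M)) : Prop where
  base : ∀ i j : V, ∀ r ∈ R, f i r = f j r
  disj : ∀ (i j : V) (a b : A), f i a = f j b → i = j ∨ a ∈ R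
  surj : ∀ x : M, ∃ i a, f i a = x
  rel : ∀ (n : ℕ) (P : L.Relations n) (v : Fin n → M), RelMap P v → ∃ i, ∀ k, ∃ a, f i a = v k

theorem isFreeAmalgamR_iff {A : Type u} [L.Structure A] {R : Set A} {M : Type u} [L.Structure M] :
    IsFreeAmalgamR (L := L) R M ↔ ∃ (V : Type u) (f : V → (A ↪[L] M)), Nonempty V ∧ FA R V M f := by
  constructor
  · rintro ⟨V, f, h0, h1, h2, h3, h4⟩
    exact ⟨V, f, h0, h1, h2, h3, h4⟩
  · rintro ⟨V, f, h0, h1, h2, h3, h4⟩
    exact ⟨V, f, h0, h1, h2, h3, h4⟩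

namespace FA

variable {A V M : Type u} [L.Structure A] [L.Structure M] {R : Set A} {f : V → (A ↪[L] M)}

theorem eq_of_eq (h : FA R V M f) {V' M' : Type u} [L.Structure M'] {f' : V' → (A ↪[L] M')}
    (h' : FA R V' M' f') (σ : V → V') {i j : V} {a b : A} (hab : f i a = f j b) :
    f' (σ i) a = f' (σ j) b := by
  rcases h.disj i j a b hab with h1 | h1
  · subst h1
    rw [(f i).injective hab]
  · rw [h.base i j a h1] at hab
    rw [(f j).injective hab] at h1 ⊢
    exact h'.base _ _ b h1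

/-- Two free amalgams of equally many copies are isomorphic. -/
theorem exists_equiv [L.IsRelational] (h : FA R V M f) {V' M' : Type u} [L.Structure M']
    {f' : V' → (A ↪[L] M')} (h' : FA R V' M' f') (σ : V ≃ V') :
    ∃ e : M ≃[L] M', ∀ i a, e (f i a) = f' (σ i) a := by
  classical
  choose i a hia using h.surj
  choose i' a' hia' using h'.surj
  let g : M → M' := fun x => f' (σ (i x)) (a x)
  let g' : M' → M := fun x => f (σ.symm (i' x)) (a' x)
  have hg : ∀ j b, g (f j b) = f' (σ j) b := fun j b =>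
    h.eq_of_eq h' σ (hia (f j b))
  have hg' : ∀ j b, g' (f' j b) = f (σ.symm j) b := fun j b =>
    h'.eq_of_eq h σ.symm (hia' (f' j b))
  refine ⟨{ toFun := g, invFun := g', left_inv := ?_, right_inv := ?_,
            map_fun' := fun F => isEmptyElim F, map_rel' := ?_ }, hg⟩
  · intro x
    rw [← hia x, hg, hg', σ.symm_apply_apply]
  · intro x
    rw [← hia' x, hg', hg, σ.apply_symm_apply]
  · intro n P v
    constructor
    · intro hP
      obtain ⟨j, hj⟩ := h'.rel n P _ hP
      choose w hw using hj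
      have h1 : g ∘ v = f' j ∘ w := funext fun k => (hw k).symm
      have h2 : v = f (σ.symm j) ∘ w := by
        funext k
        have h3 : g' (g (v k)) = v k := by
          rw [← hia (v k), hg, hg', σ.symm_apply_apply]
        rw [← h3]
        change g' ((g ∘ v) k) = _
        rw [h1]
        exact hg' j (w k)
      change RelMap P (g ∘ v) at hP
      rw [h1, (f' j).map_rel] at hP
      rw [h2, (f (σ.symm j)).map_rel]
      exact hP
    · intro hP
      obtain ⟨j, hj⟩ := h.rel n P _ hP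
      choose w hw using hj
      have h1 : v = f j ∘ w := funext fun k => (hw k).symm
      have h2 : g ∘ v = f' (σ j) ∘ w := by
        funext k
        rw [h1]
        exact hg j (w k)
      change RelMap P (g ∘ v)
      rw [h1, (f j).map_rel] at hP
      rw [h2, (f' (σ j)).map_rel]
      exact hP

theorem nonempty_equiv [L.IsRelational] (h : FA R V M f) {V' M' : Type u} [L.Structure M']
    {f' : V' → (A ↪[L] M')} (h' : FA R V' M' f') (σ : V ≃ V') : Nonempty (M ≃[L] M') := by
  obtain ⟨e, -⟩ := h.exists_equiv h' σ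
  exact ⟨e⟩

theorem comp_equiv (h : FA R V M f) {A' : Type u} [L.Structure A'] (e : A' ≃[L] A) :
    FA (e ⁻¹' R) V M (fun i => (f i).comp e.toEmbedding) := by
  refine ⟨fun i j r hr => h.base i j (e r) hr, fun i j a b hab => h.disj i j (e a) (e b) hab,
    fun x => ?_, fun n P v hv => ?_⟩
  · obtain ⟨i, a, hia⟩ := h.surj x
    refine ⟨i, e.symm a, ?_⟩
    change f i (e (e.symm a)) = x
    rw [e.apply_symm_apply, hia]
  · obtain ⟨i, hi⟩ := h.rel n P v hv
    refine ⟨i, fun k => ?_⟩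
    obtain ⟨a, ha⟩ := hi k
    refine ⟨e.symm a, ?_⟩
    change f i (e (e.symm a)) = v k
    rw [e.apply_symm_apply, ha]

theorem of_equiv (h : FA R V M f) {M' : Type u} [L.Structure M'] (e : M ≃[L] M') :
    FA R V M' (fun i => e.toEmbedding.comp (f i)) := by
  refine ⟨fun i j r hr => ?_, fun i j a b hab => ?_, fun x => ?_, fun n P v hv => ?_⟩
  · exact congrArg e (h.base i j r hr)
  · exact h.disj i j a b (e.injective hab)
  · obtain ⟨i, a, hia⟩ := h.surj (e.symm x)
    refine ⟨i, a, ?_⟩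
    change e (f i a) = x
    rw [hia, e.apply_symm_apply]
  · have h1 : RelMap P (fun k => e.symm (v k)) := (e.symm.map_rel P v).2 hv
    obtain ⟨i, hi⟩ := h.rel n P _ h1
    refine ⟨i, fun k => ?_⟩
    obtain ⟨a, ha⟩ := hi k
    refine ⟨a, ?_⟩
    change e (f i a) = v k
    rw [ha, e.apply_symm_apply]

/-- The number of copies is the cardinality of the amalgam, if the copies are small. -/
theorem mk_index (h : FA R V M f) (hA : #A < #M) (hM : ℵ₀ ≤ #M) (hR : R ≠ Set.univ) : #V = #M := by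
  obtain ⟨a, ha⟩ : ∃ a, a ∉ R := by
    by_contra hcon
    push Not at hcon
    exact hR (eq_univ_of_forall hcon)
  apply le_antisymm
  · refine mk_le_of_injective (f := fun i => f i a) fun i j hij => ?_
    exact (h.disj i j a a hij).resolve_right ha
  · by_contra hcon
    rw [not_le] at hcon
    have h1 : #M ≤ #V * #A := by
      have h2 : Function.Surjective (fun x : V × A => f x.1 x.2) := fun x => by
        obtain ⟨i, a, hia⟩ := h.surj x
        exact ⟨(i, a), hia⟩
      refine (mk_le_of_surjective h2).trans ?_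
      rw [mk_prod, lift_id, lift_id]
    exact absurd (h1.trans_lt (mul_lt_of_lt hM hcon hA)) (lt_irrefl _)

/-- A free amalgam of small copies contains no subdivision of a large complete graph. -/
theorem no_subdivision (h : FA R V M f) {ρ κ : Cardinal.{u}} (hρ : ℵ₀ ≤ ρ) (hρκ : ρ < κ)
    (hA : #A ≤ ρ) : ¬ HasCompleteSubdivision (gaifman L M) κ := by
  classical
  let c : M → Option V := fun x =>
    if hx : ∃ i, ∃ a, a ∉ R ∧ f i a = x then some hx.choose else none
  have hc1 : ∀ x i, c x = some i → ∃ a, a ∉ R ∧ f i a = x := by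
    intro x i hx
    by_cases h1 : ∃ i, ∃ a, a ∉ R ∧ f i a = x
    · have h2 : c x = some h1.choose := dif_pos h1
      rw [h2] at hx
      rw [← Option.some_injective _ hx]
      exact h1.choose_spec
    · have h2 : c x = none := dif_neg h1
      rw [h2] at hx
      cases hx
  have hc2 : ∀ x, c x = none → ∀ i a, f i a = x → a ∈ R := by
    intro x hx i a hia
    by_contra ha
    have h1 : ∃ i, ∃ a, a ∉ R ∧ f i a = x := ⟨i, a, ha, hia⟩
    have h2 : c x = some h1.choose := dif_pos h1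
    rw [h2] at hx
    cases hx
  refine not_hasCompleteSubdivision c ?_ hρ hρκ ?_ ?_
  · intro x y i j hxy hx hy
    obtain ⟨-, n, P, v, hv, ⟨k, rfl⟩, ⟨m, rfl⟩⟩ := hxy
    obtain ⟨i₀, hi₀⟩ := h.rel n P v hv
    obtain ⟨a, ha, hia⟩ := hc1 _ _ hx
    obtain ⟨b, hb, hjb⟩ := hc1 _ _ hy
    obtain ⟨a', ha'⟩ := hi₀ k
    obtain ⟨b', hb'⟩ := hi₀ m
    have h1 := (h.disj i i₀ a a' (hia.trans ha'.symm)).resolve_right ha
    have h2 := (h.disj j i₀ b b' (hjb.trans hb'.symm)).resolve_right hb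
    rw [h1, h2]
  · refine le_trans ?_ hA
    have hex : ∀ x : {x | c x = none}, ∃ i a, f i a = x.1 := fun x => h.surj x.1
    choose i a hia using hex
    refine mk_le_of_injective (f := a) fun x y hxy => Subtype.ext ?_
    have h1 := hc2 _ x.2 _ _ (hia x)
    rw [← hia x, ← hia y, ← hxy]
    exact h.base _ _ _ h1
  · intro i
    refine le_trans ?_ hA
    have hex : ∀ x : {x | c x = some i}, ∃ a, f i a = x.1 := fun x => by
      obtain ⟨a, -, ha⟩ := hc1 _ _ x.2
      exact ⟨a, ha⟩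
    choose a ha using hex
    refine mk_le_of_injective (f := a) fun x y hxy => Subtype.ext ?_
    rw [← ha x, ← ha y, hxy]

end FA

/-- The concrete amalgam is a free amalgam. -/
theorem fa_am [L.IsRelational] (R E V : Type u) [L.Structure (R ⊕ E)] [Nonempty V] :
    FA (L := L) (range (Sum.inl : R → R ⊕ E)) V (Am R E V) (fun i => cpEmb L R E i) := by
  refine ⟨?_, ?_, ?_, ?_⟩
  · rintro i j _ ⟨r, rfl⟩
    rfl
  · rintro i j (a | a) b hab
    · exact Or.inr ⟨a, rfl⟩
    · rcases b with b | b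
      · cases hab
      · left
        have h1 : (Sum.inr (i, a) : Am R E V) = Sum.inr (j, b) := hab
        exact (Prod.ext_iff.1 (Sum.inr_injective h1)).1
  · rintro (r | ⟨i, e⟩)
    · exact ⟨Classical.arbitrary V, Sum.inl r, rfl⟩
    · exact ⟨i, Sum.inr e, rfl⟩
  · intro n P v hv
    have hok := ((Am.relMap_iff P v).1 hv).2
    by_cases hex : ∃ k i a, v k = (Sum.inr (i, a) : Am R E V)
    · obtain ⟨k, i, a, hk⟩ := hex
      refine ⟨i, fun m => ?_⟩
      rcases hm : v m with r | ⟨j, b⟩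
      · exact ⟨Sum.inl r, rfl⟩
      · have h3 := hok k m
        rw [hk, hm, Am.ok_inr] at h3
        subst h3
        exact ⟨Sum.inr b, rfl⟩
    · refine ⟨Classical.arbitrary V, fun m => ?_⟩
      rcases hm : v m with r | ⟨j, b⟩
      · exact ⟨Sum.inl r, rfl⟩
      · exact absurd ⟨m, j, b, hm⟩ hex

theorem FGen.freelyGeneratedR [L.IsRelational] {K : AEC L} {μ : Cardinal.{u}} (hμ : ℵ₀ ≤ μ)
    (h : FGen K μ) : FreelyGeneratedR K μ := by
  obtain ⟨R, E, str, hEne, hR, hE, hV⟩ := h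
  have hA : #(R ⊕ E) < μ := by
    rw [mk_sum, lift_id, lift_id]
    exact add_lt_of_lt hμ hR hE
  have hne : range (Sum.inl : R → R ⊕ E) ≠ Set.univ := by
    intro hcon
    obtain ⟨e⟩ := hEne
    have h1 : (Sum.inr e : R ⊕ E) ∈ range (Sum.inl : R → R ⊕ E) := hcon ▸ mem_univ _
    obtain ⟨r, hr⟩ := h1
    cases hr
  refine ⟨R ⊕ E, str, range Sum.inl, hA, hne, fun M _ hM => ⟨fun hmem => ?_, fun hfa => ?_⟩⟩
  · have hVne : Nonempty (#M).out := by
      rw [← mk_ne_zero_iff, mk_out]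
      exact ((aleph0_pos.trans_le hμ).trans_le hM).ne'
    obtain ⟨e⟩ := (hV (#M).out (by rwa [mk_out])).2 M hmem (mk_out _).symm
    exact isFreeAmalgamR_iff.2 ⟨_, _, hVne, (fa_am R E (#M).out).of_equiv e.symm⟩
  · obtain ⟨V, f, hVne, hf⟩ := isFreeAmalgamR_iff.1 hfa
    have h1 : #V = #M := hf.mk_index (hA.trans_le hM) (hμ.trans hM) hne
    obtain ⟨e⟩ := hf.nonempty_equiv (fa_am (L := L) R E V) (Equiv.refl V)
    exact K.mem_iso e.symm (hV V (by rwa [h1])).1

/-- Free amalgams exist. -/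
theorem exists_fa [L.IsRelational] {A : Type u} [L.Structure A] (R : Set A) (hR : R ≠ Set.univ)
    (V : Type u) [Nonempty V] (hV : ℵ₀ ≤ #V) (hA : #A ≤ #V) :
    ∃ (M : Type u) (_ : L.Structure M) (f : V → (A ↪[L] M)), FA R V M f ∧ #M = #V := by
  classical
  obtain ⟨a, ha⟩ : ∃ a, a ∉ R := by
    by_contra hcon
    push Not at hcon
    exact hR (eq_univ_of_forall hcon)
  let e := (Equiv.Set.sumCompl R).symm
  let str : L.Structure (R ⊕ (Rᶜ : Set A)) := e.inducedStructure
  let g : A ≃[L] (R ⊕ (Rᶜ : Set A)) := e.inducedStructureEquiv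
  have hg1 : ∀ r : A, ∀ hr : r ∈ R, g r = Sum.inl ⟨r, hr⟩ := fun r hr =>
    Equiv.Set.sumCompl_symm_apply_of_mem hr
  have hg2 : ∀ a : A, g a ∈ range (Sum.inl : R → R ⊕ (Rᶜ : Set A)) → a ∈ R := by
    rintro a ⟨r, hr⟩
    rw [← hg1 r.1 r.2] at hr
    rw [← g.injective hr]
    exact r.2
  have h := fa_am (L := L) R (Rᶜ : Set A) V
  have hne : Nonempty (Rᶜ : Set A) := ⟨⟨a, ha⟩⟩
  refine ⟨Am R (Rᶜ : Set A) V, inferInstance,
    fun i => (cpEmb L R (Rᶜ : Set A) i).comp g.toEmbedding, ⟨?_, ?_, ?_, ?_⟩,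
    Am.mk_am_of_le hV ((mk_set_le _).trans hA) ((mk_set_le _).trans hA) rfl⟩
  · intro i j r hr
    exact h.base i j (g r) ⟨⟨r, hr⟩, (hg1 r hr).symm⟩
  · intro i j a b hab
    exact (h.disj i j (g a) (g b) hab).imp id (hg2 a)
  · intro x
    obtain ⟨i, a, hia⟩ := h.surj x
    refine ⟨i, g.symm a, ?_⟩
    change cpEmb L R (Rᶜ : Set A) i (g (g.symm a)) = x
    rw [g.apply_symm_apply]
    exact hia
  · intro n P v hv
    obtain ⟨i, hi⟩ := h.rel n P v hv
    refine ⟨i, fun k => ?_⟩
    obtain ⟨a, ha⟩ := hi k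
    refine ⟨g.symm a, ?_⟩
    change cpEmb L R (Rᶜ : Set A) i (g (g.symm a)) = v k
    rw [g.apply_symm_apply]
    exact ha

theorem FreelyGeneratedR.categoricalIn [L.IsRelational] {K : AEC L} {μ κ : Cardinal.{u}}
    (h : FreelyGeneratedR K μ) (hμ : ℵ₀ ≤ μ) (hκ : μ ≤ κ) : K.CategoricalIn κ := by
  obtain ⟨A, str, R, hA, hR, h⟩ := h
  have hV : #κ.out = κ := mk_out κ
  have hne : Nonempty κ.out := by
    rw [← mk_ne_zero_iff, hV]
    exact ((aleph0_pos.trans_le hμ).trans_le hκ).ne'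
  constructor
  · obtain ⟨M, strM, f, hf, hM⟩ := exists_fa (L := L) R hR κ.out (by rw [hV]; exact hμ.trans hκ)
      (by rw [hV]; exact hA.le.trans hκ)
    rw [hV] at hM
    exact ⟨M, strM, (h M (by rwa [hM])).2 (isFreeAmalgamR_iff.2 ⟨_, f, hne, hf⟩), hM⟩
  · intro M N _ _ hM hN hMκ hNκ
    obtain ⟨V, f, -, hf⟩ := isFreeAmalgamR_iff.1 ((h M (by rwa [hMκ])).1 hM)
    obtain ⟨W, g, -, hg⟩ := isFreeAmalgamR_iff.1 ((h N (by rwa [hNκ])).1 hN)
    have h1 := hf.mk_index (by rw [hMκ]; exact hA.trans_le hκ) (by rw [hMκ]; exact hμ.trans hκ) hR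
    have h2 := hg.mk_index (by rw [hNκ]; exact hA.trans_le hκ) (by rw [hNκ]; exact hμ.trans hκ) hR
    obtain ⟨σ⟩ := Cardinal.eq.1 (h1.trans (hMκ.trans (hNκ.symm.trans h2.symm)))
    exact hf.nonempty_equiv hg σ

/-- No member of a freely generated class contains a subdivision of a large complete graph. -/
theorem FreelyGeneratedR.no_subdivision [L.IsRelational] {K : AEC L} {μ : Cardinal.{u}}
    (h : FreelyGeneratedR K μ) (hμ : ℵ₀ < μ) (M : Type u) [L.Structure M] (hM : K.mem M) :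
    ¬ HasCompleteSubdivision (gaifman L M) μ := by
  intro hcon
  obtain ⟨A, str, R, hA, hR, h⟩ := h
  have h1 : μ ≤ #M := by
    obtain ⟨B, -, hB, -⟩ := hcon
    rw [← hB]
    exact mk_set_le B
  obtain ⟨V, f, -, hf⟩ := isFreeAmalgamR_iff.1 ((h M h1).1 hM)
  exact hf.no_subdivision (ρ := max ℵ₀ #A) (le_max_left _ _) (max_lt hμ hA) (le_max_right _ _) hcon

end Vale.Agent.P307.H582
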