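import Vale.Agent.P307.H67.Defs

universe u

namespace Vale.Agent.P307.H582

open FirstOrder Cardinal Vale.Agent.P307

variable {L : Language.{u, u}}

/-- `M` is the free amalgam of copies of the structure `A`, indexed by `V`, over the part `R` of
`A`: `M` is the union of copies of `A`, any two of them have exactly the points of `R` in common,
and every tuple of `M` in a relation or in the domain of a function lies in one of the copies. -/
def IsFreeAmalgamOf {A : Type u} [L.Structure A] (R : Set A) (V M : Type u) [L.Structure M] :
    Prop :=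
  ∃ f : V → (A ↪[L] M),
    (∀ i j : V, ∀ r ∈ R, f i r = f j r) ∧
    (∀ (i j : V) (a b : A), f i a = f j b → i = j ∨ a ∈ R) ∧
    (∀ x : M, ∃ i a, f i a = x) ∧
    (∀ (n : ℕ) (P : L.Relations n) (v : Fin n → M), Language.Structure.RelMap P v →
      ∃ i, ∀ k, ∃ a, f i a = v k) ∧
    ∀ (n : ℕ) (_ : L.Functions n) (v : Fin n → M), ∃ i, ∀ k, ∃ a, f i a = v k

/-- The structures of cardinality at least `μ` in `K` are exactly the free amalgams of copies of
one structure `A` with fewer than `μ` elements over a proper part `R` of it. -/
def FreelyGenerated (K : AEC L) (μ : Cardinal.{u}) : Prop :=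
  ∃ (A : Type u) (_ : L.Structure A) (R : Set A), #A < μ ∧ R ≠ Set.univ ∧
    ∀ (M : Type u) [L.Structure M], μ ≤ #M →
      (K.mem M ↔ ∃ V : Type u, Nonempty V ∧ IsFreeAmalgamOf (L := L) R V M)

/-- `K` contains a disjoint union of any number of copies of each of its members. -/
def ClosedUnderCopies (K : AEC L) : Prop :=
  ∀ (A : Type u) [L.Structure A], K.mem A → ∀ V : Type u, Nonempty V →
    ∃ (M : Type u) (_ : L.Structure M), K.mem M ∧ IsFreeAmalgamOf (L := L) (∅ : Set A) V M

/-- `K` has free amalgamation: if `N` is the free union of its substructures `S` and `T` (every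
point and every related tuple of `N` lies in `S` or in `T`) and the common part of `S` and `T` is a
strong substructure of both, then `S` is a strong substructure of `N`. -/
def HasFreeAmalgamation (K : AEC L) : Prop :=
  ∀ (N : Type u) [L.Structure N] (S T : L.Substructure N),
    (∀ x : N, x ∈ S ∨ x ∈ T) →
    (∀ (n : ℕ) (P : L.Relations n) (v : Fin n → N), Language.Structure.RelMap P v →
      (∀ k, v k ∈ S) ∨ ∀ k, v k ∈ T) →
    K.le ((S ⊓ T).comap S.subtype.toHom) → K.le ((S ⊓ T).comap T.subtype.toHom) → K.le S

/-- The graph `G` contains a subdivision of the complete graph on `κ` vertices in which all paths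
have length at most `n`. -/
def HasShortSubdivision {V : Type u} (G : SimpleGraph V) (κ : Cardinal.{u}) (n : ℕ) : Prop :=
  ∃ (B : Set V) (p : ∀ a b : B, G.Walk a.1 b.1), #B = κ ∧
    (∀ a b : B, a ≠ b → (p a b).IsPath ∧ (p a b).length ≤ n ∧
      ∀ x ∈ (p a b).support, x ∈ B → x = a.1 ∨ x = b.1) ∧
    ∀ a b c d : B, a ≠ b → c ≠ d → s(a, b) ≠ s(c, d) →
      ∀ x ∈ (p a b).support, x ∈ (p c d).support → x ∈ B

/-- The class `K` is nowhere dense: for every `n` there is a cardinal `θ` such that no Gaifman graph
of a member of `K` contains a subdivision of the complete graph on `θ` vertices with all paths of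
length at most `n`. -/
def IsNowhereDense (K : AEC L) : Prop :=
  ∀ n : ℕ, ∃ θ : Cardinal.{u}, ∀ (M : Type u) [L.Structure M], K.mem M →
    ¬ HasShortSubdivision (H67.gaifmanF L M) θ n

end Vale.Agent.P307.H582
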