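import Vale.Agent.P307.H582.Main
import Vale.Agent.P307.H67.Main

/-! P307 (helper582): the dichotomy in arbitrary vocabularies. -/

universe u

namespace Vale.Agent.P307.H582

open FirstOrder Language Cardinal Structure Set Vale.Agent.P307.Gr Vale.Agent.P307.H67

variable {L : Language.{u, u}}

/-- an embedding as an embedding of relational structures -/
def embR {A M : Type u} [L.Structure A] [L.Structure M] (f : A ↪[L] M) : A ↪[relLang L] M where
  toFun := f
  inj' := f.injective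
  map_fun' := fun F => PEmpty.elim F
  map_rel' := by
    intro n R x
    revert x
    refine rel_cases (C := fun n R => ∀ x : Fin n → A, RelMap R (f ∘ x) ↔ RelMap R x) ?_ ?_ n R
    · intro n R x
      exact f.map_rel R x
    · intro n F x
      rw [relMap_fS, relMap_fS]
      have h1 : funMap F (fun i : Fin n => (f ∘ x) i.succ) = f (funMap F (fun i => x i.succ)) :=
        (f.map_fun F _).symm
      rw [h1]
      exact f.injective.eq_iff

/-- an embedding of relational structures as an embedding -/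
def embL {A M : Type u} [L.Structure A] [L.Structure M] (f : A ↪[relLang L] M) : A ↪[L] M where
  toFun := f
  inj' := f.injective
  map_fun' := by
    intro n F x
    have h1 : RelMap (fS F) (Fin.cons (funMap F x) x : Fin (n + 1) → A) := by
      rw [relMap_fS]
      simp
    have h2 := (f.map_rel (fS F) _).2 h1
    rw [relMap_fS] at h2
    simp only [Function.comp_apply, Fin.cons_succ, Fin.cons_zero] at h2
    exact h2.symm
  map_rel' := fun R x => f.map_rel (rS R) x

section

variable {A V M : Type u} [L.Structure A] [L.Structure M] {R : Set A}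

theorem fa_of_isFreeAmalgamOf (h : IsFreeAmalgamOf (L := L) R V M) :
    ∃ f : V → (A ↪[relLang L] M), FA R V M f := by
  obtain ⟨f, h1, h2, h3, h4, h5⟩ := h
  refine ⟨fun i => embR (f i), h1, h2, h3, ?_⟩
  intro n P v
  revert v
  refine rel_cases (C := fun n P => ∀ v : Fin n → M, RelMap P v → ∃ i, ∀ k, ∃ a, f i a = v k)
    ?_ ?_ n P
  · intro n P v hv
    exact h4 n P v hv
  · intro n F v hv
    rw [relMap_fS] at hv
    obtain ⟨i, hi⟩ := h5 n F (fun k => v k.succ)
    choose w hw using hi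
    refine ⟨i, Fin.cases ⟨funMap F w, ?_⟩ fun k => ⟨w k, hw k⟩⟩
    rw [← hv, (f i).map_fun]
    exact congrArg _ (funext hw)

theorem isFreeAmalgamOf_of_fa {f : V → (A ↪[relLang L] M)} (h : FA R V M f) :
    IsFreeAmalgamOf (L := L) R V M := by
  refine ⟨fun i => embL (f i), h.base, h.disj, h.surj, ?_, ?_⟩
  · intro n P v hv
    exact h.rel n (rS P) v hv
  · intro n F v
    obtain ⟨i, hi⟩ := h.rel (n + 1) (fS F) (Fin.cons (funMap F v) v) (by
      rw [relMap_fS]
      simp)
    refine ⟨i, fun k => ?_⟩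
    obtain ⟨a, ha⟩ := hi k.succ
    exact ⟨a, by rw [Fin.cons_succ] at ha; exact ha⟩

/-- A copy in a free amalgam is closed under functions. -/
theorem fun_mem_copy {A V M : Type u} [(relLang L).Structure A] [L.Structure M] {R : Set A}
    {f : V → (A ↪[relLang L] M)} (h : FA R V M f) (i : V) {n : ℕ} (F : L.Functions n)
    (v : Fin n → M) (hv : ∀ k, v k ∈ range (f i)) : funMap F v ∈ range (f i) := by
  classical
  obtain ⟨j, hj⟩ := h.rel (n + 1) (fS F) (Fin.cons (funMap F v) v) (by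
    rw [relMap_fS]
    simp)
  obtain ⟨b, hb⟩ := hj 0
  rw [Fin.cons_zero] at hb
  by_cases hij : i = j
  · subst hij
    exact ⟨b, hb⟩
  choose w hw using hv
  have hwR : ∀ k, w k ∈ R := by
    intro k
    obtain ⟨a, ha⟩ := hj k.succ
    rw [Fin.cons_succ] at ha
    exact (h.disj i j (w k) a ((hw k).trans ha.symm)).resolve_left hij
  obtain ⟨e, he⟩ := h.exists_equiv h (Equiv.swap j i)
  have hev : ∀ k, e (v k) = v k := by
    intro k
    rw [← hw k, he, Equiv.swap_apply_right]
    exact h.base j i (w k) (hwR k)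
  have h1 : e (funMap F v) = funMap F v := by
    have h2 : isoOfRel e (funMap F v) = funMap F (fun k => isoOfRel e (v k)) :=
      (isoOfRel e).map_fun F v
    have h3 : (fun k => isoOfRel e (v k)) = v := funext hev
    rw [h3] at h2
    exact h2
  rw [← hb, he, Equiv.swap_apply_left] at h1
  have h4 : b ∈ R := (h.disj i j b b h1).resolve_left hij
  exact ⟨b, (h.base i j b h4).trans hb⟩

end

theorem FreelyGeneratedR.toL {K : AEC L} {μ : Cardinal.{u}}
    (h : FreelyGeneratedR (relAEC K) μ)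
    (hK : ∃ (M : Type u) (_ : L.Structure M), K.mem M ∧ μ ≤ #M) : FreelyGenerated K μ := by
  obtain ⟨A, str, R, hA, hR, h⟩ := h
  obtain ⟨M, strM, hM, hμM⟩ := hK
  obtain ⟨V, f, ⟨i⟩, hf⟩ := isFreeAmalgamR_iff.1 ((h M hμM).1 (memR_self hM))
  let S : L.Substructure M :=
    { carrier := range (f i)
      fun_mem := fun {n} F v hv => fun_mem_copy hf i F v hv }
  let e : A ≃[relLang L] S :=
    { toEquiv := Equiv.ofInjective (f i) (f i).injective
      map_fun' := fun F => PEmpty.elim F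
      map_rel' := fun {n} P x => by
        have h1 := relMap_sub S n P (fun k => Equiv.ofInjective (f i) (f i).injective (x k))
        exact h1.trans ((f i).map_rel P x) }
  have hmem : ∀ (N : Type u) [L.Structure N], K.mem N ↔ (relAEC K).mem N := by
    intro N _
    constructor
    · intro hN
      exact memR_self hN
    · rintro ⟨N₀, _, hN₀, ⟨g⟩⟩
      exact K.mem_iso (isoOfRel g) hN₀
  refine ⟨S, inferInstance, e.symm ⁻¹' R, ?_, ?_, ?_⟩
  · rw [← mk_congr e.toEquiv]
    exact hA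
  · intro hcon
    apply hR
    refine eq_univ_of_forall fun a => ?_
    have h1 : e a ∈ (e.symm ⁻¹' R : Set S) := hcon ▸ mem_univ _
    have h2 : e.symm (e a) ∈ R := h1
    rwa [e.symm_apply_apply] at h2
  · intro N _ hN
    rw [hmem N, h N hN]
    constructor
    · intro hfa
      obtain ⟨W, g, hW, hg⟩ := isFreeAmalgamR_iff.1 hfa
      exact ⟨W, hW, isFreeAmalgamOf_of_fa (hg.comp_equiv e.symm)⟩
    · rintro ⟨W, hW, hfa⟩
      obtain ⟨g, hg⟩ := fa_of_isFreeAmalgamOf hfa
      have h1 := hg.comp_equiv e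
      have h2 : e ⁻¹' (e.symm ⁻¹' R) = R := by
        ext a
        simp only [mem_preimage, e.symm_apply_apply]
      rw [h2] at h1
      exact isFreeAmalgamR_iff.2 ⟨W, _, hW, h1⟩

theorem short_iso {V V' : Type u} {G : SimpleGraph V} {G' : SimpleGraph V'} (e : G ≃g G')
    {κ : Cardinal.{u}} {m : ℕ} (h : HasShortSubdivision G κ m) : HasShortSubdivision G' κ m := by
  obtain ⟨B, p, hB, hp, hq⟩ := h
  let c : {y : V' | e.symm y ∈ B} → B := fun a => ⟨e.symm a.1, a.2⟩
  have hinj : Function.Injective c := by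
    intro a b hab
    have h1 : e.symm a.1 = e.symm b.1 := congrArg Subtype.val hab
    exact Subtype.ext (e.symm.injective h1)
  have hsurj : Function.Surjective c := by
    intro b
    refine ⟨⟨e b.1, ?_⟩, ?_⟩
    · change e.symm (e b.1) ∈ B
      rw [e.symm_apply_apply]
      exact b.2
    · exact Subtype.ext (e.symm_apply_apply _)
  have hsup : ∀ (a b : {y : V' | e.symm y ∈ B}) (x : V'),
      x ∈ (((p (c a) (c b)).map e.toHom).copy (e.apply_symm_apply a.1)
        (e.apply_symm_apply b.1)).support ↔ e.symm x ∈ (p (c a) (c b)).support := by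
    intro a b x
    rw [SimpleGraph.Walk.support_copy, SimpleGraph.Walk.support_map, List.mem_map]
    constructor
    · rintro ⟨y, hy, rfl⟩
      have : e.symm (e.toHom y) = y := e.symm_apply_apply y
      rw [this]
      exact hy
    · intro hx
      exact ⟨_, hx, e.apply_symm_apply x⟩
  refine ⟨{y : V' | e.symm y ∈ B}, fun a b => ((p (c a) (c b)).map e.toHom).copy
    (e.apply_symm_apply a.1) (e.apply_symm_apply b.1), ?_, ?_, ?_⟩
  · rw [← hB]
    exact Cardinal.mk_congr (Equiv.ofBijective c ⟨hinj, hsurj⟩)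
  · intro a b hab
    obtain ⟨h1, h1', h2⟩ := hp (c a) (c b) (fun h => hab (hinj h))
    refine ⟨?_, ?_, ?_⟩
    · rw [SimpleGraph.Walk.isPath_copy]
      exact SimpleGraph.Walk.IsPath.map e.injective h1
    · rw [SimpleGraph.Walk.length_copy, SimpleGraph.Walk.length_map]
      exact h1'
    · intro x hx hxB
      rw [hsup] at hx
      rcases h2 _ hx hxB with h3 | h3
      · left
        exact e.symm.injective h3
      · right
        exact e.symm.injective h3
  · intro a b a' b' hab hab' hne x hx hx'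
    rw [hsup] at hx hx'
    refine hq (c a) (c b) (c a') (c b') (fun h => hab (hinj h)) (fun h => hab' (hinj h)) ?_ _ hx hx'
    intro h
    apply hne
    rw [Sym2.eq_iff] at h ⊢
    rcases h with ⟨h1, h2⟩ | ⟨h1, h2⟩
    · exact Or.inl ⟨hinj h1, hinj h2⟩
    · exact Or.inr ⟨hinj h1, hinj h2⟩

theorem short_mono {V : Type u} {G : SimpleGraph V} {μ κ : Cardinal.{u}} {n : ℕ}
    (h : HasShortSubdivision G κ n) (hμ : μ ≤ κ) : HasShortSubdivision G μ n := by
  obtain ⟨B, p, h1, h2, h3⟩ := h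
  rw [← h1] at hμ
  obtain ⟨B', hB', hμ'⟩ := Cardinal.le_mk_iff_exists_subset.1 hμ
  let ι : B' → B := fun a => ⟨a.1, hB' a.2⟩
  have hι : ∀ a b : B', a ≠ b → ι a ≠ ι b := fun a b hab h =>
    hab (Subtype.ext (congrArg (fun x : B => x.1) h))
  refine ⟨B', fun a b => p (ι a) (ι b), hμ', fun a b hab => ⟨(h2 _ _ (hι a b hab)).1,
    (h2 _ _ (hι a b hab)).2.1, fun x hx hxB => (h2 _ _ (hι a b hab)).2.2 x hx (hB' hxB)⟩, ?_⟩
  intro a b c d hab hcd hs x hx hx'
  have hs' : s(ι a, ι b) ≠ s(ι c, ι d) := by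
    intro h
    apply hs
    rw [Sym2.eq_iff] at h ⊢
    rcases h with ⟨h4, h5⟩ | ⟨h4, h5⟩
    · exact Or.inl ⟨Subtype.ext (congrArg (fun x : B => x.1) h4),
        Subtype.ext (congrArg (fun x : B => x.1) h5)⟩
    · exact Or.inr ⟨Subtype.ext (congrArg (fun x : B => x.1) h4),
        Subtype.ext (congrArg (fun x : B => x.1) h5)⟩
  have h4 := h3 _ _ _ _ (hι a b hab) (hι c d hcd) hs' x hx hx'
  rcases (h2 _ _ (hι a b hab)).2.2 x hx h4 with h5 | h5
  · rw [h5]
    exact a.2
  · rw [h5]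
    exact b.2

/-- The dichotomy in arbitrary vocabularies. -/
theorem dichotomyL {K : AEC L} {l κ : Cardinal.{u}} (hK : K.IsLS l)
    (hκ : muF l ≤ κ) (hcat : K.CategoricalIn κ) : FreelyGeneratedR (relAEC K) (muF l) ∨
      ∃ n : ℕ, ∀ κ' : Cardinal.{u}, l ≤ κ' → ∃ (N : Type u) (_ : L.Structure N),
        K.mem N ∧ #N = κ' ∧ HasShortSubdivision (gaifmanF L N) κ' n := by
  rcases dichotomy (relAEC_isLS hK) hκ (categorical_iff.2 hcat) with h | ⟨n, hn⟩
  · exact Or.inl h
  · right
    refine ⟨n, fun κ' hκ' => ?_⟩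
    obtain ⟨N, strN, ⟨N₀, strN₀, hN₀, ⟨e⟩⟩, hc, hs⟩ := hn κ' hκ'
    refine ⟨N₀, strN₀, hN₀, (Cardinal.mk_congr e.toEquiv).trans hc, ?_⟩
    rw [← gaifman_relLang]
    exact short_iso (gaifmanIso e).symm hs

theorem FreelyGenerated.no_subdivision {K : AEC L} {μ : Cardinal.{u}}
    (h : FreelyGenerated K μ) (hμ : ℵ₀ < μ) (M : Type u) [L.Structure M] (hM : K.mem M) :
    ¬ HasCompleteSubdivision (gaifmanF L M) μ := by
  intro hcon
  obtain ⟨A, str, R, hA, hR, h⟩ := h
  have h1 : μ ≤ #M := by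
    obtain ⟨B, -, hB, -⟩ := hcon
    rw [← hB]
    exact mk_set_le B
  obtain ⟨V, -, hfa⟩ := (h M h1).1 hM
  obtain ⟨f, hf⟩ := fa_of_isFreeAmalgamOf hfa
  rw [← gaifman_relLang] at hcon
  exact hf.no_subdivision (ρ := max ℵ₀ #A) (le_max_left _ _) (max_lt hμ hA) (le_max_right _ _) hcon

/-- The characterisations of the tame case, in arbitrary vocabularies. -/
theorem tfaeL {K : AEC L} {l κ : Cardinal.{u}} (hK : K.IsLS l)
    (hκ : muF l ≤ κ) (hcat : K.CategoricalIn κ) :
    [FreelyGenerated K (muF l),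
      ∀ (M : Type u) [L.Structure M], K.mem M → ¬ HasCompleteSubdivision (gaifmanF L M) (muF l),
      IsNowhereDense K,
      ∀ (M : Type u) [L.Structure M], K.mem M → #M = κ →
        ¬ HasCompleteSubdivision (gaifmanF L M) κ,
      ∀ (M : Type u) [L.Structure M], K.mem M → #M = κ →
        ∀ n, ¬ HasShortSubdivision (gaifmanF L M) κ n,
      ∃ (A M : Type u) (_ : L.Structure A) (_ : L.Structure M) (R : Set A) (V : Type u),
        #A < κ ∧ #M = κ ∧ K.mem M ∧ IsFreeAmalgamOf (L := L) R V M,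
      FreelyGeneratedR (relAEC K) (muF l)].TFAE := by
  have hμ := aleph0_lt_muF hK.1
  tfae_have 1 → 2 := fun h M _ hM => h.no_subdivision hμ M hM
  tfae_have 2 → 3 := fun h n => ⟨muF l, fun M _ hM hn => h M hM hn.complete⟩
  tfae_have 3 → 7 := by
    intro h
    rcases dichotomyL hK hκ hcat with h1 | ⟨n, hn⟩
    · exact h1
    · obtain ⟨θ, hθ⟩ := h n
      obtain ⟨N, strN, hN, hNκ, h2⟩ := hn (max l θ) (le_max_left _ _)
      exact absurd (short_mono h2 (le_max_right _ _)) (hθ N hN)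
  tfae_have 7 → 1 := by
    intro h
    obtain ⟨M, strM, hM, hMκ⟩ := hcat.1
    exact h.toL ⟨M, strM, hM, by rwa [hMκ]⟩
  tfae_have 2 → 4 := fun h M _ hM _ hn => h M hM (hasCompleteSubdivision_mono hn hκ)
  tfae_have 4 → 5 := fun h M _ hM hMκ n hn => h M hM hMκ hn.complete
  tfae_have 5 → 7 := by
    intro h
    rcases dichotomyL hK hκ hcat with h1 | ⟨n, hn⟩
    · exact h1
    · obtain ⟨N, strN, hN, hNκ, h2⟩ := hn κ ((lt_muF l).le.trans hκ)
      exact absurd h2 (h N hN hNκ n)
  tfae_have 1 → 6 := by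
    intro h
    obtain ⟨A, str, R, hA, hR, h⟩ := h
    obtain ⟨M, strM, hM, hMκ⟩ := hcat.1
    obtain ⟨V, -, hV⟩ := (h M (by rwa [hMκ])).1 hM
    exact ⟨A, M, str, strM, R, V, hA.trans_le hκ, hMκ, hM, hV⟩
  tfae_have 6 → 5 := by
    rintro ⟨A, M, str, strM, R, V, hA, hMκ, hM, hfa⟩ N _ hN hNκ n hn
    obtain ⟨e⟩ := hcat.2 M N hM hN hMκ hNκ
    obtain ⟨f, hf⟩ := fa_of_isFreeAmalgamOf hfa
    rw [← gaifman_relLang] at hn
    exact (hf.of_equiv (relOfIso e)).no_subdivision (ρ := max ℵ₀ #A) (le_max_left _ _)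
      (max_lt (hμ.trans_le hκ) hA) (le_max_right _ _) hn.complete
  tfae_finish

/-- the class is categorical everywhere in the tame case -/
theorem categoricalIn_of_fg {K : AEC L} {l κ κ' : Cardinal.{u}} (hK : K.IsLS l)
    (hκ : muF l ≤ κ) (hcat : K.CategoricalIn κ) (h : FreelyGenerated K (muF l))
    (hκ' : muF l ≤ κ') : K.CategoricalIn κ' := by
  have h1 : FreelyGeneratedR (relAEC K) (muF l) := ((tfaeL hK hκ hcat).out 0 6).1 h
  exact categorical_iff.1 (h1.categoricalIn (aleph0_lt_muF hK.1).le hκ')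

theorem fg_of_copies {K : AEC L} {l κ : Cardinal.{u}}
    (hK : K.IsLS l) (hcop : ClosedUnderCopies K) (hκ : muF l ≤ κ) (hcat : K.CategoricalIn κ) :
    FreelyGenerated K (muF l) := by
  refine ((tfaeL hK hκ hcat).out 0 5).2 ?_
  obtain ⟨M, strM, hM, hMκ⟩ := hcat.1
  have hκ0 : ℵ₀ < κ := (aleph0_lt_muF hK.1).trans_le hκ
  have hMne : Nonempty M := by
    rw [← mk_ne_zero_iff, hMκ]
    exact (aleph0_pos.trans hκ0).ne'
  obtain ⟨S, hS1, hS2, hS3⟩ := exists_small hK hM
  have hVne : Nonempty κ.out := by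
    rw [← mk_ne_zero_iff, mk_out]
    exact (aleph0_pos.trans hκ0).ne'
  have hSκ : #S < κ := hS3.trans_lt ((lt_muF l).trans_le hκ)
  obtain ⟨x⟩ := hS2
  obtain ⟨N, strN, hN, hfa⟩ := hcop S (K.mem_of_le S hS1).1 κ.out hVne
  obtain ⟨f, hf⟩ := fa_of_isFreeAmalgamOf hfa
  have h1 : #N = κ := by
    apply le_antisymm
    · have h2 : Function.Surjective (fun x : κ.out × S => f x.1 x.2) := fun y => by
        obtain ⟨i, a, hia⟩ := hf.surj y
        exact ⟨(i, a), hia⟩
      refine (mk_le_of_surjective h2).trans ?_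
      rw [mk_prod, lift_id, lift_id, mk_out]
      exact (mul_le_mul' le_rfl hSκ.le).trans (mul_eq_self hκ0.le).le
    · have h2 : Function.Injective (fun i : κ.out => f i x) := fun i j hij =>
        (hf.disj i j x x hij).resolve_right (Set.notMem_empty x)
      have h3 := mk_le_of_injective h2
      rwa [mk_out] at h3
  exact ⟨S, N, inferInstance, strN, ∅, κ.out, hSκ, h1, hN, hfa⟩

theorem isFreeAmalgamOf_of_faR [L.IsRelational] {A V M : Type u} [L.Structure A] [L.Structure M]
    {R : Set A} {f : V → (A ↪[L] M)} (h : FA R V M f) : IsFreeAmalgamOf (L := L) R V M :=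
  ⟨f, h.base, h.disj, h.surj, h.rel, fun _ F => isEmptyElim F⟩

theorem fg_of_amalgams [L.IsRelational] {K : AEC L} {l κ : Cardinal.{u}}
    (hK : K.IsLS l) (hfree : HasFreeAmalgamation K) (hκ : muF l ≤ κ)
    (hcat : K.CategoricalIn κ) : FreelyGenerated K (muF l) := by
  obtain ⟨A, str, R, hA, hR, h⟩ := freelyGenerated_of_amalgams hK hfree hκ hcat
  refine ⟨A, str, R, hA, hR, fun M _ hM => (h M hM).trans ⟨fun hfa => ?_, ?_⟩⟩
  · obtain ⟨V, f, hV, hf⟩ := isFreeAmalgamR_iff.1 hfa
    exact ⟨V, hV, isFreeAmalgamOf_of_faR hf⟩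
  · rintro ⟨V, hV, f, h1, h2, h3, h4, -⟩
    exact isFreeAmalgamR_iff.2 ⟨V, f, hV, h1, h2, h3, h4⟩

end Vale.Agent.P307.H582
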