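import Vale.Agent.P307.Bdl.B1

/-! P307 (helper582): a free amalgam of small pieces over a small base contains no subdivision of a
large complete graph. -/

universe u

namespace Vale.Agent.P307.H582

open FirstOrder Language Cardinal Structure Set Vale.Agent.P307.Gr

/-- A walk from a vertex of the piece `i` to a vertex outside it meets the base. -/
theorem exists_mem_base {X V : Type u} {G : SimpleGraph X} (c : X → Option V)
    (hc : ∀ x y i j, G.Adj x y → c x = some i → c y = some j → i = j) {x y : X} (p : G.Walk x y)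
    {i : V} (hx : c x = some i) (hy : c y ≠ some i) : ∃ z ∈ p.support, c z = none := by
  induction p with
  | nil => exact absurd hx hy
  | cons h p ih =>
    rename_i a b d
    rcases hb : c b with _ | j
    · exact ⟨b, by simp, hb⟩
    · have hij := hc _ _ _ _ h hx hb
      subst hij
      obtain ⟨z, hz, hz'⟩ := ih hb hy
      exact ⟨z, by simp [hz], hz'⟩

/-- If the vertices of `G` outside a base of at most `ρ` vertices fall into pieces of at most `ρ`
vertices, with no edges between different pieces, then `G` contains no subdivision of the complete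
graph on `κ > ρ` vertices. -/
theorem not_hasCompleteSubdivision {X V : Type u} {G : SimpleGraph X} (c : X → Option V)
    (hc : ∀ x y i j, G.Adj x y → c x = some i → c y = some j → i = j) {ρ κ : Cardinal.{u}}
    (hρ : ℵ₀ ≤ ρ) (hρκ : ρ < κ) (hbase : #{x | c x = none} ≤ ρ)
    (hpiece : ∀ i, #{x | c x = some i} ≤ ρ) : ¬ HasCompleteSubdivision G κ := by
  classical
  rintro ⟨B, p, hB, h1, h2⟩
  let I : Set V := {i | ∃ b ∈ B, c b = some i}
  have hI : ρ < #I := by
    by_contra hcon
    rw [not_lt] at hcon
    have hsub : B ⊆ {x | c x = none} ∪ ⋃ i : I, {x | c x = some i.1} := by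
      intro x hx
      rcases hx' : c x with _ | i
      · exact Or.inl hx'
      · exact Or.inr (mem_iUnion.2 ⟨⟨i, x, hx, hx'⟩, hx'⟩)
    have hle : #B ≤ ρ := by
      refine (mk_le_mk_of_subset hsub).trans ((mk_union_le _ _).trans ?_)
      exact Cardinal.add_le_of_le hρ hbase (mk_iUnion_le_of_le hρ hcon _ fun i => hpiece i.1)
    rw [hB] at hle
    exact absurd hle (not_le.2 hρκ)
  have hIne : Nonempty I := by
    rw [← mk_ne_zero_iff]
    exact ((aleph0_pos.trans_le hρ).trans hI).ne'
  obtain ⟨i₀⟩ := hIne
  choose b hb hcb using fun i : I => i.2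
  have hbne : ∀ i j : I, i ≠ j → (⟨b i, hb i⟩ : B) ≠ ⟨b j, hb j⟩ := by
    intro i j hij h
    have h' := congrArg (fun x : B => c x.1) h
    simp only [hcb] at h'
    exact hij (Subtype.ext (Option.some_injective _ h'))
  let J : Set I := {i | i ≠ i₀}
  have hex : ∀ i : J, ∃ z ∈ (p ⟨b i₀, hb i₀⟩ ⟨b i.1, hb i.1⟩).support, c z = none := by
    intro i
    refine exists_mem_base c hc _ (hcb i₀) ?_
    rw [hcb]
    intro h
    exact i.2 (Subtype.ext (Option.some_injective _ h))
  choose z hz hcz using hex
  have hzB : ∀ i : J, z i ∉ B := by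
    intro i hi
    rcases (h1 _ _ (hbne _ _ (Ne.symm i.2))).2 _ (hz i) hi with h | h
    · have := congrArg c h
      rw [hcz] at this
      exact absurd (this.trans (hcb i₀)) (by simp)
    · have := congrArg c h
      rw [hcz] at this
      exact absurd (this.trans (hcb i.1)) (by simp)
  have hinj : Function.Injective (fun i : J => (⟨z i, hcz i⟩ : {x | c x = none})) := by
    intro i j hij
    by_contra hne
    have hzz : z i = z j := congrArg Subtype.val hij
    have hne' : i.1 ≠ j.1 := fun h => hne (Subtype.ext h)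
    have hs : s((⟨b i₀, hb i₀⟩ : B), ⟨b i.1, hb i.1⟩) ≠ s((⟨b i₀, hb i₀⟩ : B), ⟨b j.1, hb j.1⟩) := by
      intro h
      rw [Sym2.eq_iff] at h
      rcases h with ⟨-, h⟩ | ⟨h, -⟩
      · exact hbne _ _ hne' h
      · exact hbne _ _ (Ne.symm j.2) h
    refine hzB i (h2 _ _ _ _ (hbne _ _ (Ne.symm i.2)) (hbne _ _ (Ne.symm j.2)) hs _ (hz i) ?_)
    rw [hzz]
    exact hz j
  have hJ : #J ≤ ρ := (mk_le_of_injective hinj).trans hbase
  have hIle : #I ≤ ρ := by
    have h3 : (Set.univ : Set I) ⊆ J ∪ {i₀} := by
      intro i _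
      by_cases h : i = i₀
      · exact Or.inr h
      · exact Or.inl h
    rw [← mk_univ]
    refine (mk_le_mk_of_subset h3).trans ((mk_union_le _ _).trans ?_)
    refine Cardinal.add_le_of_le hρ hJ ?_
    rw [mk_singleton]
    exact one_le_aleph0.trans hρ
  exact absurd hIle (not_le.2 hI)

end Vale.Agent.P307.H582
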