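import Vale.Agent.P307.Bdl.B1

/-! P307 (helper582): Hanf number arguments for categoricity spectra. -/

universe u

namespace Vale.Agent.P307.H582

open FirstOrder Cardinal Set Vale.Agent.P307

/-- Downward transfer from all categoricity cardinals gives transfer in both directions. -/
theorem uniform_of_downward (l χ : Cardinal.{u}) : ∃ μ, χ ≤ μ ∧ l ≤ μ ∧
    ∀ (L : Language.{u, u}) (K : AEC L), K.LS ≤ l →
      (∀ κ ν : Cardinal.{u}, K.CategoricalIn κ → χ ≤ ν → ν ≤ κ → K.CategoricalIn ν) →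
      ∀ κ, μ ≤ κ → K.CategoricalIn κ → ∀ κ', μ ≤ κ' → K.CategoricalIn κ' := by
  obtain ⟨Λ, hΛ⟩ : ∃ Λ : Type u, #Λ = l := ⟨l.out, mk_out l⟩
  have h : ∀ c : CodeTy Λ, ∃ b : Cardinal.{u}, (∀ κ ∈ spec c, κ ≤ b) ∨
      ∀ b', ∃ κ ∈ spec c, b' < κ := by
    intro c
    by_cases hb : ∃ b : Cardinal.{u}, ∀ κ ∈ spec c, κ ≤ b
    · obtain ⟨b, hb⟩ := hb
      exact ⟨b, Or.inl hb⟩
    · push Not at hb
      exact ⟨0, Or.inr hb⟩
  choose b hb using h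
  have hbdd : BddAbove (Set.range b) := bddAbove_of_small
  refine ⟨max (max l χ) (Order.succ (⨆ c, b c)), (le_max_right _ _).trans (le_max_left _ _),
    (le_max_left _ _).trans (le_max_left _ _), ?_⟩
  intro L K hK hdown κ hκ hcat κ' hκ'
  have hLS : K.IsLS #Λ := AEC.isLS_of_LS_le (hK.trans hΛ.ge)
  obtain ⟨c, hc, -⟩ := exists_code K hLS
  rcases hb c with h1 | h1
  · exfalso
    have h2 : κ ≤ b c := h1 κ ((hc κ).2 hcat)
    have h3 : b c < κ := (Order.lt_succ_of_le (le_ciSup hbdd c)).trans_le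
      ((le_max_right _ _).trans hκ)
    exact absurd h2 (not_le.2 h3)
  · obtain ⟨κ₂, h2, h3⟩ := h1 κ'
    exact hdown κ₂ κ' ((hc κ₂).1 h2) (((le_max_right _ _).trans (le_max_left _ _)).trans hκ') h3.le

/-- Q1 is equivalent to its non-uniform form: every abstract elementary class which is categorical
in arbitrarily large cardinals is categorical in all sufficiently large cardinals. -/
theorem q1_iff :
    (∀ l : Cardinal.{u}, ℵ₀ ≤ l → ∃ μ : Cardinal.{u}, l ≤ μ ∧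
      ∀ (L : Language.{u, u}) (K : AEC L), K.LS ≤ l →
        ∀ κ : Cardinal.{u}, μ ≤ κ → K.CategoricalIn κ →
          ∀ κ' : Cardinal.{u}, μ ≤ κ' → K.CategoricalIn κ') ↔
    ∀ (L : Language.{u, u}) (K : AEC L),
      (∀ χ : Cardinal.{u}, ∃ κ, χ ≤ κ ∧ K.CategoricalIn κ) →
      ∃ χ : Cardinal.{u}, ∀ κ, χ ≤ κ → K.CategoricalIn κ := by
  constructor
  · intro h L K hunb
    have hLS := AEC.isLS_LS K
    obtain ⟨μ, -, hμ⟩ := h K.LS hLS.1
    obtain ⟨κ, hκ, hcat⟩ := hunb μ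
    exact ⟨μ, fun κ' hκ' => hμ L K le_rfl κ hκ hcat κ' hκ'⟩
  · intro h l hl
    obtain ⟨Λ, hΛ⟩ : ∃ Λ : Type u, #Λ = l := ⟨l.out, mk_out l⟩
    have h1 : ∀ c : CodeTy Λ, ∃ χ : Cardinal.{u}, (∀ κ ∈ spec c, κ < χ) ∨
        ∀ κ, χ ≤ κ → κ ∈ spec c := by
      intro c
      by_cases hb : ∃ b : Cardinal.{u}, ∀ κ ∈ spec c, κ < b
      · obtain ⟨b, hb⟩ := hb
        exact ⟨b, Or.inl hb⟩
      · push Not at hb
        obtain ⟨κ₀, ⟨K, hK1, hK2, hK3⟩, -⟩ := hb 0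
        have hspec : ∀ κ, κ ∈ spec c → K.CategoricalIn κ := by
          rintro κ ⟨K', h1, h2, h3⟩
          exact categoricalIn_of_part_eq (h2.trans hK2.symm) h1 hK1 h3
        obtain ⟨χ, hχ⟩ := h _ K fun χ => by
          obtain ⟨κ, h2, h3⟩ := hb χ
          exact ⟨κ, h3, hspec κ h2⟩
        exact ⟨χ, Or.inr fun κ hκ => ⟨K, hK1, hK2, hχ κ hκ⟩⟩
    choose χ hχ using h1
    have hbdd : BddAbove (Set.range χ) := bddAbove_of_small
    refine ⟨max l (⨆ c, χ c), le_max_left _ _, ?_⟩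
    intro L K hK κ hκ hcat κ' hκ'
    have hLS : K.IsLS #Λ := AEC.isLS_of_LS_le (hK.trans hΛ.ge)
    obtain ⟨c, hc, -⟩ := exists_code K hLS
    rcases hχ c with h1 | h1
    · exfalso
      have h2 := h1 κ ((hc κ).2 hcat)
      exact absurd h2 (not_lt.2 (((le_ciSup hbdd c).trans (le_max_right _ _)).trans hκ))
    · exact (hc κ').1 (h1 κ' (((le_ciSup hbdd c).trans (le_max_right _ _)).trans hκ'))

/-- Q1 is equivalent to downward transfer and to its non-uniform form. -/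
theorem q1_tfae : List.TFAE [
    ∀ l : Cardinal.{u}, ℵ₀ ≤ l → ∃ μ : Cardinal.{u}, l ≤ μ ∧
      ∀ (L : Language.{u, u}) (K : AEC L), K.LS ≤ l →
        ∀ κ : Cardinal.{u}, μ ≤ κ → K.CategoricalIn κ →
          ∀ κ' : Cardinal.{u}, μ ≤ κ' → K.CategoricalIn κ',
    ∀ l : Cardinal.{u}, ℵ₀ ≤ l → ∃ μ : Cardinal.{u}, l ≤ μ ∧
      ∀ (L : Language.{u, u}) (K : AEC L), K.LS ≤ l →
        ∀ κ : Cardinal.{u}, μ ≤ κ → K.CategoricalIn κ →
          ∀ κ' : Cardinal.{u}, μ ≤ κ' → κ' ≤ κ → K.CategoricalIn κ',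
    ∀ (L : Language.{u, u}) (K : AEC L),
      (∀ χ : Cardinal.{u}, ∃ κ, χ ≤ κ ∧ K.CategoricalIn κ) →
      ∃ χ : Cardinal.{u}, ∀ κ, χ ≤ κ → K.CategoricalIn κ] := by
  tfae_have 1 ↔ 3 := q1_iff
  tfae_have 1 → 2 := by
    intro h l hl
    obtain ⟨μ, h1, h2⟩ := h l hl
    exact ⟨μ, h1, fun L K hK κ hκ hcat κ' hκ' _ => h2 L K hK κ hκ hcat κ' hκ'⟩
  tfae_have 2 → 1 := by
    intro h l hl
    obtain ⟨χ, h1, h2⟩ := h l hl
    obtain ⟨μ, h3, h4, h5⟩ := uniform_of_downward l χ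
    refine ⟨μ, h4, fun L K hK κ hκ hcat κ' hκ' => ?_⟩
    exact h5 L K hK (fun κ₁ ν hcat₁ hν hνκ => h2 L K hK κ₁ (hν.trans hνκ) hcat₁ ν hν hνκ) κ hκ hcat
      κ' hκ'
  tfae_finish

end Vale.Agent.P307.H582
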