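import Vale.Agent.P307.H582.Graph

/-! P307 (helper582): the models of a subdivision-free categorical class are free amalgams of
copies of one small structure over a part of it, and conversely. -/

universe u

namespace Vale.Agent.P307.H582

open FirstOrder Language Cardinal Structure Set Vale.Agent.P307.Gr

variable {L : Language.{u, u}}

/-- the threshold -/
noncomputable def muF (l : Cardinal.{u}) : Cardinal.{u} := muG (max l (hanf (2 ^ l)))

theorem lt_muG (l : Cardinal.{u}) : Order.succ l < muG l := by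
  have h1 : Order.succ l ≤ thetaG l := (le_max_right _ _).trans (le_max_right _ _)
  exact h1.trans_lt ((cantor _).trans (Order.lt_succ _))

theorem lt_muF (l : Cardinal.{u}) : l < muF l :=
  (le_max_left l _).trans_lt ((Order.lt_succ _).trans (lt_muG _))

/-- No subdivision of the complete graph: inseparable sets are small. -/
theorem hins_of_no {K : AEC L} {l κ : Cardinal.{u}} (hK : K.IsLS l)
    (hno : ∀ (N : Type u) [L.Structure N], K.mem N → #N = κ →
      ¬ HasCompleteSubdivision (gaifman L N) κ) (hl'κ : max l (hanf (2 ^ l)) ≤ κ)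
    (N : Type u) [L.Structure N] (hN : K.mem N) (Z : Set N)
    (hZ : Insep L (max l (hanf (2 ^ l))) Z) : #Z ≤ max l (hanf (2 ^ l)) := by
  set l' := max l (hanf (2 ^ l)) with hl'
  have hl := hK.1
  have hll' : l ≤ l' := le_max_left _ _
  by_contra hcon
  rw [not_le] at hcon
  obtain ⟨b, Q, hs⟩ := exists_subDiv (hl.trans hll') hZ hcon
  have hcard : #(SuccTy l') = Order.succ l' := by simp [SuccTy]
  have hne : Nonempty (SuccTy l') := by
    rw [← mk_ne_zero_iff, hcard]
    exact (aleph0_pos.trans_le (hl.trans (hll'.trans (Order.le_succ _)))).ne'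
  obtain ⟨N', strN', hN', hN'κ, T, ordT, b', Q', hT, hs'⟩ := exists_big_subDiv hK
    (hll'.trans hl'κ) N hN (X := SuccTy l') (by
      rw [hcard]
      exact (le_max_right l _).trans (Order.le_succ _)) hne hs
  have h1 := hs'.hasCompleteSubdivision
  rw [hT] at h1
  exact hno N' hN' hN'κ h1

/-- The structure theorem. -/
theorem structure_of_insep [L.IsRelational] {K : AEC L} {l κ : Cardinal.{u}} (hK : K.IsLS l)
    (hins : ∀ (N : Type u) [L.Structure N], K.mem N → #N = κ →
      ∀ Z : Set N, Insep L l Z → #Z ≤ l) (hκ : muG l ≤ κ) (hcat : K.CategoricalIn κ) :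
    ∃ (R E : Type u) (_ : L.Structure (R ⊕ E)), Nonempty E ∧ #R ≤ Order.succ l ∧
      #E ≤ Order.succ l ∧ ∀ V : Type u, muG l ≤ #V → K.mem (Am R E V) ∧
        ∀ (M : Type u) [L.Structure M], K.mem M → #M = #V → Nonempty (M ≃[L] Am R E V) := by
  have hl := hK.1
  have hs : ∀ {ρ : Cardinal.{u}}, muG l ≤ ρ → Order.succ l < ρ := fun h => (lt_muG l).trans_le h
  have hsl : ℵ₀ ≤ Order.succ l := hl.trans (Order.le_succ l)
  obtain ⟨M₀, strM₀, hM₀, hM₀κ⟩ := hcat.1
  obtain ⟨R, E, str, hEne, hR, hE, -, -, hmem⟩ := exists_amalgam hK (hs hκ).le hins M₀ hM₀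
    (by
      rw [hM₀κ]
      exact (le_max_left _ _).trans ((cantor _).le.trans ((Order.le_succ _).trans hκ)))
    (by rw [hM₀κ]; exact hsl.trans (hs hκ).le)
  refine ⟨R, E, str, hEne, hR, hE, fun V hV => ⟨hmem V ((Order.lt_succ l).trans (hs hV)), ?_⟩⟩
  intro M _ hM hMV
  refine (categorical_transfer hK hins hκ hcat hV).2 M (Am R E V) hM
    (hmem V ((Order.lt_succ l).trans (hs hV))) hMV ?_
  exact Am.mk_am_of_le (hsl.trans (hs hV).le) (hR.trans (hs hV).le) (hE.trans (hs hV).le) rfl

/-- From cardinality `μ` on, `K` has exactly one model in each cardinality: the free amalgam of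
copies of a structure `R ⊕ E` with fewer than `μ` elements over its part `R`. -/
def FGen [L.IsRelational] (K : AEC L) (μ : Cardinal.{u}) : Prop :=
  ∃ (R E : Type u) (_ : L.Structure (R ⊕ E)), Nonempty E ∧ #R < μ ∧ #E < μ ∧
    ∀ V : Type u, μ ≤ #V → K.mem (Am R E V) ∧
      ∀ (M : Type u) [L.Structure M], K.mem M → #M = #V → Nonempty (M ≃[L] Am R E V)

theorem FGen.categoricalIn [L.IsRelational] {K : AEC L} {μ κ : Cardinal.{u}}
    (h : FGen K μ) (hμ : ℵ₀ ≤ μ) (hκ : μ ≤ κ) : K.CategoricalIn κ := by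
  obtain ⟨R, E, str, hE, hR, hE', hV⟩ := h
  have h1 := hV κ.out (by rwa [mk_out])
  refine ⟨⟨Am R E κ.out, inferInstance, h1.1, Am.mk_am_of_le (hμ.trans hκ)
    (hR.le.trans hκ) (hE'.le.trans hκ) (mk_out κ)⟩, ?_⟩
  intro M N _ _ hM hN hMκ hNκ
  obtain ⟨e⟩ := h1.2 M hM (by rw [hMκ, mk_out])
  obtain ⟨f⟩ := h1.2 N hN (by rw [hNκ, mk_out])
  exact ⟨f.symm.comp e⟩

theorem fgen_of_no [L.IsRelational] {K : AEC L} {l κ : Cardinal.{u}} (hK : K.IsLS l)
    (hκ : muF l ≤ κ) (hcat : K.CategoricalIn κ)
    (hno : ∀ (N : Type u) [L.Structure N], K.mem N → #N = κ →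
      ¬ HasCompleteSubdivision (gaifman L N) κ) : FGen K (muF l) := by
  have h1 : max l (hanf (2 ^ l)) ≤ κ := ((Order.le_succ _).trans (lt_muG _).le).trans hκ
  obtain ⟨R, E, str, hEne, hR, hE, h⟩ := structure_of_insep (hK.mono (le_max_left _ _))
    (fun N _ hN _ => hins_of_no hK hno h1 N hN) hκ hcat
  exact ⟨R, E, str, hEne, hR.trans_lt (lt_muG _), hE.trans_lt (lt_muG _), h⟩

/-- the copy in which a point of the amalgam lies -/
def idx {R E V : Type u} : Am R E V → Option V
  | Sum.inl _ => none
  | Sum.inr a => some a.1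

/-- If `K` contains a free amalgam of `κ` copies of a small structure and is categorical in `κ`,
then its model of cardinality `κ` contains no subdivision of the complete graph on `κ` vertices. -/
theorem no_of_mem [L.IsRelational] {K : AEC L} {κ : Cardinal.{u}}
    (hcat : K.CategoricalIn κ) {R E V : Type u} [L.Structure (R ⊕ E)] [Nonempty E]
    (hκ : ℵ₀ < κ) (hR : #R < κ) (hE : #E < κ) (hV : #V = κ) (hmem : K.mem (Am R E V))
    (N : Type u) [L.Structure N] (hN : K.mem N) (hNκ : #N = κ) :
    ¬ HasCompleteSubdivision (gaifman L N) κ := by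
  obtain ⟨e⟩ := hcat.2 N (Am R E V) hN hmem hNκ (Am.mk_am_of_le hκ.le hR.le hE.le hV)
  have hVne : Nonempty V := by
    rw [← mk_ne_zero_iff, hV]
    exact (aleph0_pos.trans hκ).ne'
  refine not_hasCompleteSubdivision (ρ := max ℵ₀ (max #R #E)) (fun x => idx (e x)) ?_
    (le_max_left _ _) (max_lt hκ (max_lt hR hE)) ?_ ?_
  · intro x y i j hxy hx hy
    have h1 : gadj L (e x) (e y) := (gadj_equiv e).2 hxy.2
    have h2 := (Am.gadj_iff.1 h1).2
    revert hx hy h2
    rcases e x with r | ⟨i', a⟩ <;> rcases e y with s | ⟨j', b⟩ <;> intro hx hy h2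
    · cases hx
    · cases hx
    · cases hy
    · rw [Am.ok_inr] at h2
      have hx' : some i' = some i := hx
      have hy' : some j' = some j := hy
      rw [← Option.some_injective _ hx', ← Option.some_injective _ hy', h2]
  · refine le_trans ?_ ((le_max_left _ _).trans (le_max_right _ _))
    have hex : ∀ x : {x | idx (e x) = none}, ∃ r : R, e x.1 = (Sum.inl r : Am R E V) := by
      rintro ⟨x, hx⟩
      have hx' : idx (e x) = none := hx
      revert hx'
      rcases e x with r | ⟨i, a⟩ <;> intro hx'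
      · exact ⟨r, rfl⟩
      · cases hx'
    choose r hr using hex
    refine mk_le_of_injective (f := r) fun x y hxy => Subtype.ext (e.injective ?_)
    rw [hr x, hr y, hxy]
  · intro i
    refine le_trans ?_ ((le_max_right _ _).trans (le_max_right _ _))
    have hex : ∀ x : {x | idx (e x) = some i}, ∃ a : E, e x.1 = (Sum.inr (i, a) : Am R E V) := by
      rintro ⟨x, hx⟩
      have hx' : idx (e x) = some i := hx
      revert hx'
      rcases e x with r | ⟨j, a⟩ <;> intro hx'
      · cases hx'
      · have hx'' : j = i := Option.some_injective _ hx'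
        subst hx''
        exact ⟨a, rfl⟩
    choose a ha using hex
    refine mk_le_of_injective (f := a) fun x y hxy => Subtype.ext (e.injective ?_)
    rw [ha x, ha y, hxy]

end Vale.Agent.P307.H582
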