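import Vale.Agent.P307.H582.RelDefs
import Vale.Agent.P307.H582.Struct
import Mathlib.Data.Set.Card

/-! P307 (helper582): large inseparable sets give arbitrarily large subdivisions of complete graphs
with paths of bounded length. The first proof follows `exists_big_subDiv`. -/

universe u

namespace Vale.Agent.P307.H582

open FirstOrder Language Cardinal Structure Set Vale.Agent.P307.Gr

variable {L L₁ : Language.{u, u}}

theorem exists_big_short {K : AEC L} {l : Cardinal.{u}} (hK : K.IsLS l)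
    (M : Type u) [L.Structure M] (hM : K.mem M) {X : Type u} [LinearOrder X] [WellFoundedLT X]
    (hX : hanf (2 ^ l) ≤ #X) (hXne : Nonempty X) {b : X → M} {Q : X → X → Set M}
    (hs : SubDiv L b Q) :
    ∃ n₀ : ℕ, ∀ κ : Cardinal.{u}, l ≤ κ → ∃ (N : Type u) (_ : L.Structure N), K.mem N ∧ #N = κ ∧
      ∃ (T : Type u) (_ : LinearOrder T) (b' : T → N) (Q' : T → T → Set N), #T = κ ∧
        SubDiv L b' Q' ∧ ∀ s t, s < t → (Q' s t).ncard ≤ n₀ := by
  classical
  have hl := hK.1
  have hMne : Nonempty M := ⟨b (Classical.arbitrary X)⟩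
  -- witnesses
  choose W hW1 hW2 using fun x y : M => exists_witness (L := L) x y
  let c : Finset M → Set M := fun A => ⋃ p : A × A, W p.1 p.2
  have hcl : ∀ A, #(c A) ≤ l := by
    intro A
    refine (mk_iUnion_le _).trans ?_
    refine (mul_le_mul' (b := l) (d := l) ?_ (ciSup_le' fun p => ?_)).trans (mul_eq_self hl).le
    · exact (Cardinal.lt_aleph0_of_finite _).le.trans hl
    · have := (hW1 p.1 p.2).to_subtype
      exact (Cardinal.lt_aleph0_of_finite _).le.trans hl
  let Λ : Type u := l.out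
  have hΛ : #Λ = l := mk_out l
  obtain ⟨fn, hfn⟩ := Gr.exists_skolem hK hM c hcl hΛ.symm.le
  -- enumerations of the paths
  have henum : ∀ y z : M, ∃ P : ℕ → M, ∀ s t, s < t → b s = y → b t = z → range P = Q s t := by
    intro y z
    by_cases h : ∃ s t, s < t ∧ b s = y ∧ b t = z
    · obtain ⟨s, t, hst, hsy, htz⟩ := h
      have := (hs.fin s t hst).to_subtype
      have hne : Nonempty (Q s t) := ⟨⟨b s, hs.left s t hst⟩⟩
      obtain ⟨f, hf⟩ := exists_surjective_nat (Q s t)
      refine ⟨fun k => (f k).1, fun s' t' _ hsy' htz' => ?_⟩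
      have h1 : s' = s := hs.inj (hsy'.trans hsy.symm)
      have h2 : t' = t := hs.inj (htz'.trans htz.symm)
      subst h1 h2
      ext w
      constructor
      · rintro ⟨k, rfl⟩
        exact (f k).2
      · intro hw
        obtain ⟨k, hk⟩ := hf ⟨w, hw⟩
        exact ⟨k, congrArg Subtype.val hk⟩
    · exact ⟨fun _ => y, fun s t hst h1 h2 => absurd ⟨s, t, hst, h1, h2⟩ h⟩
  choose P hP using henum
  have hP' : ∀ s t, s < t → range (P (b s) (b t)) = Q s t := fun s t h => hP _ _ s t h rfl rfl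
  -- the expansion
  let fn' : ∀ n : ℕ, (Λ ⊕ ULift.{u} ℕ) → (Fin n → M) → M := fun n G v =>
    Sum.elim (fun ξ => fn n ξ v) (fun k => if h : 1 < n then
      P (v ⟨0, zero_lt_one.trans h⟩) (v ⟨1, h⟩) k.down else Classical.arbitrary M) G
  let L₁ : Language.{u, u} := L.sum (LX (Λ ⊕ ULift.{u} ℕ) PEmpty.{u + 1})
  let φ : L →ᴸ L₁ := LHom.sumInl
  let strX : (LX (Λ ⊕ ULift.{u} ℕ) PEmpty.{u + 1}).Structure M :=
    lxStr fn' (fun _ h _ => h.elim)
  have hL₁ : L₁.card ≤ l := card_LX_le hl hK.2.1 (by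
    simp only [mk_sum, lift_id, hΛ]
    refine add_le_of_le hl (_root_.le_refl _) ?_
    simpa using hl) (by simp)
  let Pi : ℕ → L₁.Functions 2 := fun k => Sum.inr (Sum.inr ⟨k⟩)
  have hPi : ∀ k (v : Fin 2 → M), funMap (Pi k) v = P (v 0) (v 1) k := by
    intro k v
    change (if h : 1 < 2 then P (v ⟨0, zero_lt_one.trans h⟩) (v ⟨1, h⟩) k else
      Classical.arbitrary M) = _
    rw [dif_pos (by decide)]
    rfl
  have hS : ∀ S : L₁.Substructure M, (∃ S' : L.Substructure M, K.le S' ∧ (S' : Set M) = S) ∧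
      ∀ A : Finset M, (A : Set M) ⊆ S → c A ⊆ S := by
    intro S
    refine hfn S fun n ξ v hv => ?_
    exact S.fun_mem (Sum.inr (Sum.inl ξ) : L₁.Functions n) v hv
  have hcl1 : Cl1 K φ M := by
    intro S
    obtain ⟨S', h1, h2⟩ := (hS S).1
    have h3 : φ.substructureReduct S = S' := SetLike.coe_injective h2.symm
    rw [h3]
    exact h1
  obtain ⟨a, ha1, ha2⟩ := exists_template (L := L₁) hl hL₁ b hX
  have hta : IsTemplate L₁ (fun n k => b (a n k)) := fun k n g hg => ha2 k n g hg
  refine ⟨(range (P (b (a 2 0)) (b (a 2 1)))).ncard, fun κ hκ => ?_⟩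
  have hκ0 : ℵ₀ ≤ κ := hl.trans hκ
  let I : Type u := κ.ord.ToType
  have hI : #I = κ := by simp [I]
  obtain ⟨N, strN, e, he, htop⟩ := exists_isEM hta I
  let strN' : L.Structure N := φ.reduct N
  have hloc := isEM_local he htop
  have hNK : K.mem N ∧ Cl1 K φ N := hcl1.transfer fun A => by
    obtain ⟨ρ⟩ := hloc A
    exact ⟨ρ, ρ.injective⟩
  have htup : ∀ {m : ℕ} (q : Fin m → I), ∃ w : Fin m → X, (∀ p p', q p < q p' ↔ w p < w p') ∧
      AtEq L₁ (fun p => e (q p)) (fun p => b (w p)) := fun q => isEM_tuple ha1 he q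
  -- terms
  let tP : ∀ {m : ℕ}, ℕ → Fin m → Fin m → L₁.Term (Fin m) := fun k p p' =>
    Term.func (Pi k) ![Term.var p, Term.var p']
  have htP : ∀ {m : ℕ} (k : ℕ) (p p' : Fin m) (v : Fin m → M),
      (tP k p p').realize v = P (v p) (v p') k := by
    intro m k p p' v
    change funMap (Pi k) (fun i => ((![Term.var p, Term.var p'] : Fin 2 → L₁.Term (Fin m)) i).realize v)
      = _
    rw [hPi]
    rfl
  let PN : ℕ → N → N → N := fun k y z => funMap (Pi k) ![y, z]
  have htPN : ∀ {m : ℕ} (k : ℕ) (p p' : Fin m) (v : Fin m → N),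
      (tP k p p').realize v = PN k (v p) (v p') := by
    intro m k p p' v
    change funMap (Pi k) (fun i => ((![Term.var p, Term.var p'] : Fin 2 → L₁.Term (Fin m)) i).realize v)
      = funMap (Pi k) ![v p, v p']
    congr 1
    funext i
    refine Fin.cases rfl (fun i => ?_) i
    refine Fin.cases rfl (fun i => i.elim0) i
  -- `e` is injective
  have heinj : Function.Injective e := by
    intro i j hij
    obtain ⟨w, hw1, hw2⟩ := htup ![i, j]
    have h1 : b (w 0) = b (w 1) := (hw2.1 (Term.var 0) (Term.var 1)).1 hij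
    have h2 := hs.inj h1
    rcases lt_trichotomy i j with h | h | h
    · have h3 : w 0 < w 1 := (hw1 0 1).1 h
      exact absurd h2 h3.ne
    · exact h
    · have h3 : w 1 < w 0 := (hw1 1 0).1 h
      exact absurd h2 h3.ne'
  have hNκ : #N = κ := by
    apply le_antisymm
    · have h1 : ∀ x : N, ∃ t : L₁.Term I, t.realize e = x := fun x => by
        rw [← mem_closure_range, htop]
        trivial
      choose t ht using h1
      have h2 : #N ≤ #(L₁.Term I) := mk_le_of_injective (f := t) fun x y hxy => by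
        rw [← ht x, ← ht y, hxy]
      exact h2.trans (mk_term_le hκ0 (hL₁.trans hκ) I hI.le)
    · rw [← hI]
      exact mk_le_of_injective heinj
  let QN : I → I → Set N := fun i j => range fun k => PN k (e i) (e j)
  refine ⟨N, strN', hNK.1, hNκ, I, inferInstance, e, QN, hI, ⟨heinj, ?_, ?_, ?_, ?_, ?_, ?_⟩, ?_⟩
  · -- finiteness
    intro i j hij
    obtain ⟨w, hw1, hw2⟩ := htup ![i, j]
    have hlt : w 0 < w 1 := (hw1 0 1).1 hij
    have hfin : (range (P (b (w 0)) (b (w 1)))).Finite := by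
      rw [hP' _ _ hlt]
      exact hs.fin _ _ hlt
    have h1 : ∀ k m, P (b (w 0)) (b (w 1)) k = P (b (w 0)) (b (w 1)) m →
        PN k (e i) (e j) = PN m (e i) (e j) := by
      intro k m hkm
      have h2 := hw2.1 (tP k 0 1) (tP m 0 1)
      rw [htP, htP, htPN, htPN] at h2
      exact h2.2 hkm
    have hrep : ∀ y : range (P (b (w 0)) (b (w 1))), ∃ k, P (b (w 0)) (b (w 1)) k = y.1 :=
      fun y => y.2
    choose r hr using hrep
    have := hfin.to_subtype
    refine (finite_range fun y => PN (r y) (e i) (e j)).subset ?_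
    rintro _ ⟨k, rfl⟩
    exact ⟨⟨_, ⟨k, rfl⟩⟩, h1 _ _ (hr ⟨_, ⟨k, rfl⟩⟩)⟩
  · intro i j hij
    obtain ⟨w, hw1, hw2⟩ := htup ![i, j]
    have hlt : w 0 < w 1 := (hw1 0 1).1 hij
    have h1 : b (w 0) ∈ range (P (b (w 0)) (b (w 1))) := by
      rw [hP' _ _ hlt]
      exact hs.left _ _ hlt
    obtain ⟨k, hk⟩ := h1
    refine ⟨k, ?_⟩
    have h2 := hw2.1 (tP k 0 1) (Term.var 0)
    rw [htP, htPN] at h2
    exact h2.2 hk
  · intro i j hij
    obtain ⟨w, hw1, hw2⟩ := htup ![i, j]
    have hlt : w 0 < w 1 := (hw1 0 1).1 hij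
    have h1 : b (w 1) ∈ range (P (b (w 0)) (b (w 1))) := by
      rw [hP' _ _ hlt]
      exact hs.right _ _ hlt
    obtain ⟨k, hk⟩ := h1
    refine ⟨k, ?_⟩
    have h2 := hw2.1 (tP k 0 1) (Term.var 1)
    rw [htP, htPN] at h2
    exact h2.2 hk
  · -- connectedness
    intro i j hij
    obtain ⟨w, hw1, hw2⟩ := htup ![i, j]
    have hlt : w 0 < w 1 := (hw1 0 1).1 hij
    have hw2' : AtEq L₁ (fun p : ULift.{u} (Fin 2) => e (![i, j] p.down))
        (fun p : ULift.{u} (Fin 2) => b (w p.down)) := hw2.comp ULift.down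
    obtain ⟨E, hE⟩ := exists_closure_equiv hw2'
    have hQr := hP' _ _ hlt
    -- the points of the path in `M` lie in the closure
    have hmemM : ∀ k, P (b (w 0)) (b (w 1)) k ∈ Substructure.closure L₁
        (range fun p : ULift.{u} (Fin 2) => b (w p.down)) := by
      intro k
      refine mem_closure_range.2 ⟨(tP k 0 1).relabel ULift.up, ?_⟩
      rw [Term.realize_relabel]
      exact htP k 0 1 (fun p => b (w p))
    have hmemN : ∀ k, PN k (e i) (e j) ∈ Substructure.closure L₁
        (range fun p : ULift.{u} (Fin 2) => e (![i, j] p.down)) := by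
      intro k
      refine mem_closure_range.2 ⟨(tP k 0 1).relabel ULift.up, ?_⟩
      rw [Term.realize_relabel]
      exact htPN k 0 1 (fun p => e (![i, j] p))
    have hEk : ∀ k, (E ⟨PN k (e i) (e j), hmemN k⟩ : M) = P (b (w 0)) (b (w 1)) k := by
      intro k
      have h1 : ((tP k 0 1).relabel ULift.up : L₁.Term (ULift.{u} (Fin 2))).realize
          (fun p : ULift.{u} (Fin 2) => e (![i, j] p.down)) = PN k (e i) (e j) := by
        rw [Term.realize_relabel]
        exact htPN k 0 1 (fun p => e (![i, j] p))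
      have h2 : ((tP k 0 1).relabel ULift.up : L₁.Term (ULift.{u} (Fin 2))).realize
          (fun p : ULift.{u} (Fin 2) => b (w p.down)) = P (b (w 0)) (b (w 1)) k := by
        rw [Term.realize_relabel]
        exact htP k 0 1 (fun p => b (w p))
      have h3 := hE ((tP k 0 1).relabel ULift.up) (by rw [h1]; exact hmemN k)
      rw [h2] at h3
      rw [← h3]
      congr 2
      exact Subtype.ext h1.symm
    -- adjacency transfer
    have hadj : ∀ k m, gadj L (P (b (w 0)) (b (w 1)) k) (P (b (w 0)) (b (w 1)) m) →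
        gadj L (PN k (e i) (e j)) (PN m (e i) (e j)) := by
      intro k m hkm
      obtain ⟨n, R, v, hv, ⟨p, hp⟩, ⟨p', hp'⟩, hvW⟩ := hW2 _ _ hkm
      let S := Substructure.closure L₁ (range fun p : ULift.{u} (Fin 2) => b (w p.down))
      have hcS := (hS S).2 {P (b (w 0)) (b (w 1)) k, P (b (w 0)) (b (w 1)) m} (by
        intro z hz
        simp only [Finset.coe_insert, Finset.coe_singleton, mem_insert_iff,
          mem_singleton_iff] at hz
        rcases hz with rfl | rfl
        · exact hmemM k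
        · exact hmemM m)
      have hvS : ∀ q, v q ∈ S := fun q => by
        apply hcS
        exact mem_iUnion.2 ⟨(⟨_, Finset.mem_insert_self _ _⟩,
          ⟨_, Finset.mem_insert_of_mem (Finset.mem_singleton_self _)⟩), hvW ⟨q, rfl⟩⟩
      let v' : Fin n → Substructure.closure L₁
          (range fun p : ULift.{u} (Fin 2) => e (![i, j] p.down)) :=
        fun q => E.symm ⟨v q, hvS q⟩
      have hv' : ∀ q, E (v' q) = ⟨v q, hvS q⟩ := fun q => E.apply_symm_apply _
      have h1 : RelMap (φ.onRelation R) (fun q => (⟨v q, hvS q⟩ : S)) := hv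
      have h2 : RelMap (φ.onRelation R) v' := by
        rw [← E.map_rel]
        have : (E ∘ v') = fun q => (⟨v q, hvS q⟩ : S) := funext hv'
        rw [this]
        exact h1
      have h3 : RelMap R (fun q => (v' q).1) := h2
      have hval : ∀ q r, v q = P (b (w 0)) (b (w 1)) r → (v' q).1 = PN r (e i) (e j) := by
        intro q r hq
        have h4 : v' q = ⟨PN r (e i) (e j), hmemN r⟩ := by
          apply E.injective
          rw [hv']
          apply Subtype.ext
          rw [hEk]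
          exact hq
        rw [h4]
      exact ⟨n, R, fun q => (v' q).1, h3, ⟨p, hval p k hp⟩, ⟨p', hval p' m hp'⟩⟩
    have heq : ∀ k m, P (b (w 0)) (b (w 1)) k = P (b (w 0)) (b (w 1)) m →
        PN k (e i) (e j) = PN m (e i) (e j) := by
      intro k m hkm
      have h2 := hw2.1 (tP k 0 1) (tP m 0 1)
      rw [htP, htP, htPN, htPN] at h2
      exact h2.2 hkm
    have h0 : ∃ k, P (b (w 0)) (b (w 1)) k = b (w 0) ∧ PN k (e i) (e j) = e i := by
      have h1 : b (w 0) ∈ range (P (b (w 0)) (b (w 1))) := by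
        rw [hQr]
        exact hs.left _ _ hlt
      obtain ⟨k, hk⟩ := h1
      have h2 := hw2.1 (tP k 0 1) (Term.var 0)
      rw [htP, htPN] at h2
      exact ⟨k, hk, h2.2 hk⟩
    have h1 : ∃ k, P (b (w 0)) (b (w 1)) k = b (w 1) ∧ PN k (e i) (e j) = e j := by
      have h1 : b (w 1) ∈ range (P (b (w 0)) (b (w 1))) := by
        rw [hQr]
        exact hs.right _ _ hlt
      obtain ⟨k, hk⟩ := h1
      have h2 := hw2.1 (tP k 0 1) (Term.var 1)
      rw [htP, htPN] at h2
      exact ⟨k, hk, h2.2 hk⟩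
    obtain ⟨k₀, hk₀, hk₀'⟩ := h0
    obtain ⟨k₁, hk₁, hk₁'⟩ := h1
    have key : ∀ y, conn L (Q (w 0) (w 1))ᶜ (b (w 0)) y → ∃ k, P (b (w 0)) (b (w 1)) k = y ∧
        conn L (QN i j)ᶜ (e i) (PN k (e i) (e j)) := by
      intro y hy
      induction hy with
      | refl => exact ⟨k₀, hk₀, by rw [hk₀']; exact Relation.ReflTransGen.refl⟩
      | @tail y z _ hyz ih =>
        obtain ⟨k, hk, hconn⟩ := ih
        have hz : z ∈ Q (w 0) (w 1) := not_not.1 hyz.2.1
        rw [← hQr] at hz
        obtain ⟨m, hm⟩ := hz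
        refine ⟨m, hm, Relation.ReflTransGen.tail hconn ⟨?_, ?_, ?_⟩⟩
        · exact not_not.2 ⟨k, rfl⟩
        · exact not_not.2 ⟨m, rfl⟩
        · apply hadj
          rw [hk, hm]
          exact hyz.2.2
    obtain ⟨k, hk, hconn⟩ := key _ (hs.conn _ _ hlt)
    rw [← hk₁'] 
    rw [heq k k₁ (hk.trans hk₁.symm)] at hconn
    exact hconn
  · -- branch vertices
    rintro i j hij g ⟨k, hk⟩
    obtain ⟨w, hw1, hw2⟩ := htup ![i, j, g]
    have hlt : w 0 < w 1 := (hw1 0 1).1 hij
    have h2 := hw2.1 (tP k 0 1) (Term.var 2)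
    rw [htP, htPN] at h2
    have h3 : P (b (w 0)) (b (w 1)) k = b (w 2) := h2.1 hk
    have h4 : b (w 2) ∈ Q (w 0) (w 1) := by
      rw [← hP' _ _ hlt]
      exact ⟨k, h3⟩
    rcases hs.avoid _ _ hlt _ h4 with h5 | h5
    · left
      apply heinj
      exact (hw2.1 (Term.var 2) (Term.var 0)).2 (congrArg b h5)
    · right
      apply heinj
      exact (hw2.1 (Term.var 2) (Term.var 1)).2 (congrArg b h5)
  · -- disjointness
    rintro i j i' j' hij hij' hne x ⟨k, hk⟩ ⟨m, hm⟩
    obtain ⟨w, hw1, hw2⟩ := htup ![i, j, i', j']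
    have hlt : w 0 < w 1 := (hw1 0 1).1 hij
    have hlt' : w 2 < w 3 := (hw1 2 3).1 hij'
    have hne' : w 0 ≠ w 2 ∨ w 1 ≠ w 3 := by
      rcases hne with h | h
      · left
        intro h'
        rcases lt_trichotomy i i' with h1 | h1 | h1
        · exact absurd h' ((hw1 0 2).1 h1).ne
        · exact h h1
        · exact absurd h' ((hw1 2 0).1 h1).ne'
      · right
        intro h'
        rcases lt_trichotomy j j' with h1 | h1 | h1
        · exact absurd h' ((hw1 1 3).1 h1).ne
        · exact h h1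
        · exact absurd h' ((hw1 3 1).1 h1).ne'
    have h2 := hw2.1 (tP k 0 1) (tP m 2 3)
    rw [htP, htP, htPN, htPN] at h2
    have h3 : P (b (w 0)) (b (w 1)) k = P (b (w 2)) (b (w 3)) m := h2.1 (hk.trans hm.symm)
    have h4 : P (b (w 0)) (b (w 1)) k ∈ Q (w 0) (w 1) := by
      rw [← hP' _ _ hlt]
      exact ⟨k, rfl⟩
    have h5 : P (b (w 0)) (b (w 1)) k ∈ Q (w 2) (w 3) := by
      rw [h3, ← hP' _ _ hlt']
      exact ⟨m, rfl⟩
    obtain ⟨r, hr⟩ := hs.disj _ _ _ _ hlt hlt' hne' _ h4 h5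
    have h6 : b r ∈ Q (w 0) (w 1) := by
      rw [hr]
      exact h4
    rcases hs.avoid _ _ hlt _ h6 with h7 | h7
    · refine ⟨i, ?_⟩
      have h8 := hw2.1 (tP k 0 1) (Term.var 0)
      rw [htP, htPN] at h8
      have h9 : PN k (e i) (e j) = e i := h8.2 (by rw [← hr, h7]; rfl)
      rw [← h9]
      exact hk
    · refine ⟨j, ?_⟩
      have h8 := hw2.1 (tP k 0 1) (Term.var 1)
      rw [htP, htPN] at h8
      have h9 : PN k (e i) (e j) = e j := h8.2 (by rw [← hr, h7]; rfl)
      rw [← h9]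
      exact hk
  · -- bounded length
    intro i j hij
    have h1 := he 2 ![i, j] (by
      intro p p' hpp
      have h0 : p = 0 ∧ p' = 1 := by omega
      rw [h0.1, h0.2]
      exact hij)
    have hlt : a 2 0 < a 2 1 := ha1 2 (by decide)
    have hfin : (range (P (b (a 2 0)) (b (a 2 1)))).Finite := by
      rw [hP' _ _ hlt]
      exact hs.fin _ _ hlt
    let r : M → ℕ := fun y => if h : ∃ k, P (b (a 2 0)) (b (a 2 1)) k = y then h.choose else 0
    have hr : ∀ k, P (b (a 2 0)) (b (a 2 1)) (r (P (b (a 2 0)) (b (a 2 1)) k)) =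
        P (b (a 2 0)) (b (a 2 1)) k := by
      intro k
      have h2 : ∃ m, P (b (a 2 0)) (b (a 2 1)) m = P (b (a 2 0)) (b (a 2 1)) k := ⟨k, rfl⟩
      have h3 : r (P (b (a 2 0)) (b (a 2 1)) k) = h2.choose := dif_pos h2
      rw [h3]
      exact h2.choose_spec
    have hsub : QN i j ⊆ (fun y => PN (r y) (e i) (e j)) '' range (P (b (a 2 0)) (b (a 2 1))) := by
      rintro _ ⟨k, rfl⟩
      refine ⟨_, ⟨k, rfl⟩, ?_⟩
      have h2 := h1.1 (tP (r (P (b (a 2 0)) (b (a 2 1)) k)) 0 1) (tP k 0 1)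
      rw [htP, htP, htPN, htPN] at h2
      exact h2.2 (hr k)
    exact (ncard_le_ncard hsub (hfin.image _)).trans (ncard_image_le hfin)

section

variable {M : Type u} [L.Structure M]

theorem exists_walk' {Q : Set M} {x y : M} (hx : x ∈ Q) (h : conn L Qᶜ x y) :
    ∃ p : (gaifman L M).Walk x y, p.IsPath ∧ ∀ z ∈ p.support, z ∈ Q := by
  classical
  have key : ∃ p : (gaifman L M).Walk x y, ∀ z ∈ p.support, z ∈ Q := by
    induction h with
    | refl =>
      refine ⟨SimpleGraph.Walk.nil, fun z hz => ?_⟩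
      rw [SimpleGraph.Walk.support_nil, List.mem_singleton] at hz
      rwa [hz]
    | @tail b c _ hbc ih =>
      obtain ⟨p, hp⟩ := ih
      by_cases hbc' : b = c
      · subst hbc'
        exact ⟨p, hp⟩
      · have hadj : (gaifman L M).Adj b c := ⟨hbc', hbc.2.2⟩
        refine ⟨p.concat hadj, fun z hz => ?_⟩
        rw [SimpleGraph.Walk.support_concat, List.mem_append, List.mem_singleton] at hz
        rcases hz with hz | hz
        · exact hp z hz
        · rw [hz]
          exact not_not.1 hbc.2.1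
  obtain ⟨p, hp⟩ := key
  exact ⟨p.bypass, p.bypass_isPath, fun z hz => hp z (p.support_bypass_subset_support hz)⟩

theorem hasShortSubdivision {T : Type u} [LinearOrder T] {b : T → M}
    {Q : T → T → Set M} (h : SubDiv L b Q) {n₀ : ℕ} (hn₀ : ∀ s t, s < t → (Q s t).ncard ≤ n₀) :
    HasShortSubdivision (gaifman L M) #T n₀ := by
  classical
  have h1 : ∀ a a' : range b, ∃ p : (gaifman L M).Walk a.1 a'.1,
      (a ≠ a' → p.IsPath) ∧ (∀ s t, s < t → b s = a.1 → b t = a'.1 → ∀ z ∈ p.support, z ∈ Q s t) ∧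
      (∀ s t, t < s → b s = a.1 → b t = a'.1 → ∀ z ∈ p.support, z ∈ Q t s) := by
    rintro ⟨_, ⟨s, rfl⟩⟩ ⟨_, ⟨t, rfl⟩⟩
    rcases lt_trichotomy s t with hst | hst | hst
    · obtain ⟨p, hp1, hp2⟩ := exists_walk' (h.left s t hst) (h.conn s t hst)
      refine ⟨p, fun _ => hp1, fun s' t' _ hs' ht' z hz => ?_, fun s' t' h' hs' ht' => ?_⟩
      · rw [h.inj hs', h.inj ht']
        exact hp2 z hz
      · rw [h.inj hs', h.inj ht'] at h'
        exact absurd h' (not_lt.2 hst.le)
    · subst hst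
      refine ⟨SimpleGraph.Walk.nil, fun hne => absurd rfl hne, fun s' t' h' hs' ht' => ?_,
        fun s' t' h' hs' ht' => ?_⟩
      · rw [h.inj hs', h.inj ht'] at h'
        exact absurd h' (lt_irrefl _)
      · rw [h.inj hs', h.inj ht'] at h'
        exact absurd h' (lt_irrefl _)
    · obtain ⟨p, hp1, hp2⟩ := exists_walk' (h.left t s hst) (h.conn t s hst)
      refine ⟨p.reverse, fun _ => hp1.reverse, fun s' t' h' hs' ht' => ?_,
        fun s' t' _ hs' ht' z hz => ?_⟩
      · rw [h.inj hs', h.inj ht'] at h'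
        exact absurd h' (not_lt.2 hst.le)
      · rw [h.inj hs', h.inj ht']
        rw [SimpleGraph.Walk.support_reverse, List.mem_reverse] at hz
        exact hp2 z hz
  choose p hp1 hp2 hp3 using h1
  -- the support of a path lies in the corresponding set
  have h2 : ∀ a a' : range b, a ≠ a' → ∃ s t, s < t ∧ (∀ z ∈ (p a a').support, z ∈ Q s t) ∧
      ((b s = a.1 ∧ b t = a'.1) ∨ (b s = a'.1 ∧ b t = a.1)) := by
    rintro ⟨_, ⟨s, rfl⟩⟩ ⟨_, ⟨t, rfl⟩⟩ hne
    rcases lt_trichotomy s t with hst | hst | hst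
    · exact ⟨s, t, hst, hp2 _ _ s t hst rfl rfl, Or.inl ⟨rfl, rfl⟩⟩
    · subst hst
      exact absurd rfl hne
    · exact ⟨t, s, hst, hp3 _ _ s t hst rfl rfl, Or.inr ⟨rfl, rfl⟩⟩
  refine ⟨range b, p, mk_range_eq b h.inj, fun a a' hne => ⟨hp1 a a' hne, ?_, ?_⟩, ?_⟩
  · obtain ⟨s, t, hst, hsup, -⟩ := h2 a a' hne
    have h3 : (p a a').support.toFinset.card ≤ (Q s t).ncard := by
      rw [← ncard_coe_finset]
      refine ncard_le_ncard (fun z hz => hsup z ?_) (h.fin s t hst)
      exact List.mem_toFinset.1 (Finset.mem_coe.1 hz)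
    rw [List.toFinset_card_of_nodup (hp1 a a' hne).support_nodup,
      SimpleGraph.Walk.length_support] at h3
    exact (Nat.le_succ _).trans (h3.trans (hn₀ s t hst))
  · intro x hx hxB
    obtain ⟨s, t, hst, hsup, hcase⟩ := h2 a a' hne
    obtain ⟨r, rfl⟩ := hxB
    rcases h.avoid s t hst r (hsup _ hx) with h3 | h3
    · subst h3
      rcases hcase with h4 | h4
      · exact Or.inl h4.1
      · exact Or.inr h4.1
    · subst h3
      rcases hcase with h4 | h4
      · exact Or.inr h4.2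
      · exact Or.inl h4.2
  · intro a a' c c' hne hne' hs x hx hx'
    obtain ⟨s, t, hst, hsup, hcase⟩ := h2 a a' hne
    obtain ⟨s', t', hst', hsup', hcase'⟩ := h2 c c' hne'
    refine h.disj s t s' t' hst hst' ?_ x (hsup x hx) (hsup' x hx')
    by_contra hcon
    push Not at hcon
    obtain ⟨h3, h4⟩ := hcon
    subst h3 h4
    apply hs
    rcases hcase with ⟨h5, h6⟩ | ⟨h5, h6⟩ <;> rcases hcase' with ⟨h7, h8⟩ | ⟨h7, h8⟩
    · have h9 : a = c := Subtype.ext (h5.symm.trans h7)
      have h10 : a' = c' := Subtype.ext (h6.symm.trans h8)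
      rw [h9, h10]
    · have h9 : a = c' := Subtype.ext (h5.symm.trans h7)
      have h10 : a' = c := Subtype.ext (h6.symm.trans h8)
      rw [h9, h10]
      exact Sym2.eq_swap
    · have h9 : a' = c := Subtype.ext (h5.symm.trans h7)
      have h10 : a = c' := Subtype.ext (h6.symm.trans h8)
      rw [h9, h10]
      exact Sym2.eq_swap
    · have h9 : a' = c' := Subtype.ext (h5.symm.trans h7)
      have h10 : a = c := Subtype.ext (h6.symm.trans h8)
      rw [h9, h10]

end

end Vale.Agent.P307.H582
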