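import Vale.Agent.P307.H582.Bridge
import Vale.Agent.P307.H582.Short

/-! P307 (helper582): the dichotomy for categorical classes in relational vocabularies. -/

universe u

namespace Vale.Agent.P307.H582

open FirstOrder Language Cardinal Structure Set Vale.Agent.P307.Gr

variable {L : Language.{u, u}}

theorem HasShortSubdivision.complete {V : Type u} {G : SimpleGraph V} {κ : Cardinal.{u}} {n : ℕ}
    (h : HasShortSubdivision G κ n) : HasCompleteSubdivision G κ := by
  obtain ⟨B, p, h1, h2, h3⟩ := h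
  exact ⟨B, p, h1, fun a b hab => ⟨(h2 a b hab).1, (h2 a b hab).2.2⟩, h3⟩

theorem hasCompleteSubdivision_mono {V : Type u} {G : SimpleGraph V} {μ κ : Cardinal.{u}}
    (h : HasCompleteSubdivision G κ) (hμ : μ ≤ κ) : HasCompleteSubdivision G μ := by
  obtain ⟨B, p, h1, h2, h3⟩ := h
  rw [← h1] at hμ
  obtain ⟨B', hB', hμ'⟩ := Cardinal.le_mk_iff_exists_subset.1 hμ
  let ι : B' → B := fun a => ⟨a.1, hB' a.2⟩
  have hι : ∀ a b : B', a ≠ b → ι a ≠ ι b := fun a b hab h =>
    hab (Subtype.ext (congrArg (fun x : B => x.1) h))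
  refine ⟨B', fun a b => p (ι a) (ι b), hμ', fun a b hab => ⟨(h2 _ _ (hι a b hab)).1,
    fun x hx hxB => (h2 _ _ (hι a b hab)).2 x hx (hB' hxB)⟩, ?_⟩
  intro a b c d hab hcd hs x hx hx'
  have hs' : s(ι a, ι b) ≠ s(ι c, ι d) := by
    intro h
    apply hs
    rw [Sym2.eq_iff] at h ⊢
    rcases h with ⟨h4, h5⟩ | ⟨h4, h5⟩
    · exact Or.inl ⟨Subtype.ext (congrArg (fun x : B => x.1) h4),
        Subtype.ext (congrArg (fun x : B => x.1) h5)⟩
    · exact Or.inr ⟨Subtype.ext (congrArg (fun x : B => x.1) h4),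
        Subtype.ext (congrArg (fun x : B => x.1) h5)⟩
  have h4 := h3 _ _ _ _ (hι a b hab) (hι c d hcd) hs' x hx hx'
  rcases (h2 _ _ (hι a b hab)).2 x hx h4 with h5 | h5
  · rw [h5]
    exact a.2
  · rw [h5]
    exact b.2

theorem aleph0_lt_muF {l : Cardinal.{u}} (hl : ℵ₀ ≤ l) : ℵ₀ < muF l := hl.trans_lt (lt_muF l)

/-- The dichotomy. -/
theorem dichotomy [L.IsRelational] {K : AEC L} {l κ : Cardinal.{u}} (hK : K.IsLS l)
    (hκ : muF l ≤ κ) (hcat : K.CategoricalIn κ) : FreelyGeneratedR K (muF l) ∨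
      ∃ n : ℕ, ∀ κ' : Cardinal.{u}, l ≤ κ' → ∃ (N : Type u) (_ : L.Structure N),
        K.mem N ∧ #N = κ' ∧ HasShortSubdivision (gaifman L N) κ' n := by
  by_cases hcon : ∃ n : ℕ, ∀ κ' : Cardinal.{u}, l ≤ κ' → ∃ (N : Type u) (_ : L.Structure N),
        K.mem N ∧ #N = κ' ∧ HasShortSubdivision (gaifman L N) κ' n
  · exact Or.inr hcon
  left
  refine FGen.freelyGeneratedR (aleph0_lt_muF hK.1).le ?_
  have hins : ∀ (N : Type u) [L.Structure N], K.mem N → #N = κ → ∀ Z : Set N,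
      Insep L (max l (hanf (2 ^ l))) Z → #Z ≤ max l (hanf (2 ^ l)) := by
    intro N _ hN _ Z hZ
    by_contra hlt
    rw [not_le] at hlt
    apply hcon
    set l' := max l (hanf (2 ^ l)) with hl'
    have hll' : l ≤ l' := le_max_left _ _
    obtain ⟨b, Q, hs⟩ := exists_subDiv (hK.1.trans hll') hZ hlt
    have hcard : #(SuccTy l') = Order.succ l' := by simp [SuccTy]
    have hne : Nonempty (SuccTy l') := by
      rw [← mk_ne_zero_iff, hcard]
      exact (aleph0_pos.trans_le (hK.1.trans (hll'.trans (Order.le_succ _)))).ne'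
    obtain ⟨n, hn⟩ := exists_big_short hK N hN (X := SuccTy l') (by
      rw [hcard]
      exact (le_max_right l _).trans (Order.le_succ _)) hne hs
    refine ⟨n, fun κ' hκ' => ?_⟩
    obtain ⟨N', strN', hN', hN'κ, T, ordT, b', Q', hT, hs', hlen⟩ := hn κ' hκ'
    have h1 := hasShortSubdivision hs' hlen
    rw [hT] at h1
    exact ⟨N', strN', hN', hN'κ, h1⟩
  obtain ⟨R, E, str, hEne, hR, hE, h⟩ := structure_of_insep (hK.mono (le_max_left l (hanf (2 ^ l))))
    hins hκ hcat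
  exact ⟨R, E, str, hEne, hR.trans_lt (lt_muG _), hE.trans_lt (lt_muG _), h⟩

/-- The characterisations of the tame case. -/
theorem tfae [L.IsRelational] {K : AEC L} {l κ : Cardinal.{u}} (hK : K.IsLS l)
    (hκ : muF l ≤ κ) (hcat : K.CategoricalIn κ) :
    [FreelyGeneratedR K (muF l),
      ∀ (M : Type u) [L.Structure M], K.mem M → ¬ HasCompleteSubdivision (gaifman L M) (muF l),
      ∀ (M : Type u) [L.Structure M], K.mem M → #M = κ →
        ∀ n, ¬ HasShortSubdivision (gaifman L M) κ n,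
      ∃ (A M : Type u) (_ : L.Structure A) (_ : L.Structure M) (R : Set A), #A < κ ∧ #M = κ ∧
        IsFreeAmalgamR (L := L) R M ∧ K.mem M].TFAE := by
  have hμ := aleph0_lt_muF hK.1
  tfae_have 1 → 2 := fun h M _ hM => h.no_subdivision hμ M hM
  tfae_have 2 → 3 := fun h M _ hM _ n hn => h M hM (hasCompleteSubdivision_mono hn.complete hκ)
  tfae_have 3 → 1 := by
    intro h
    rcases dichotomy hK hκ hcat with h1 | ⟨n, hn⟩
    · exact h1
    · obtain ⟨N, strN, hN, hNκ, h2⟩ := hn κ ((lt_muF l).le.trans hκ)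
      exact absurd h2 (h N hN hNκ n)
  tfae_have 1 → 4 := by
    intro h
    obtain ⟨A, str, R, hA, hR, h⟩ := h
    obtain ⟨M, strM, hM, hMκ⟩ := hcat.1
    exact ⟨A, M, str, strM, R, hA.trans_le hκ, hMκ, (h M (by rwa [hMκ])).1 hM, hM⟩
  tfae_have 4 → 3 := by
    rintro ⟨A, M, str, strM, R, hA, hMκ, hfa, hM⟩ N _ hN hNκ n hn
    obtain ⟨e⟩ := hcat.2 M N hM hN hMκ hNκ
    obtain ⟨V, f, -, hf⟩ := isFreeAmalgamR_iff.1 hfa
    exact (hf.of_equiv e).no_subdivision (ρ := max ℵ₀ #A) (le_max_left _ _)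
      (max_lt (hμ.trans_le hκ) hA) (le_max_right _ _) hn.complete
  tfae_finish

theorem freelyGenerated_of_amalgams [L.IsRelational] {K : AEC L} {l κ : Cardinal.{u}}
    (hK : K.IsLS l) (hfree : HasFreeAmalgamation K) (hκ : muF l ≤ κ)
    (hcat : K.CategoricalIn κ) : FreelyGeneratedR K (muF l) :=
  (fgen_of_amalgams hK (fun N _ S T h => hfree N S T h.1 h.2) hκ hcat).freelyGeneratedR
    (aleph0_lt_muF hK.1).le

end Vale.Agent.P307.H582
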