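import Mathlib.Algebra.DirectSum.Module
import Mathlib.Algebra.Module.Submodule.Equiv
import Mathlib.LinearAlgebra.Finsupp.Supported
import Mathlib.LinearAlgebra.Finsupp.LSum
import Mathlib.SetTheory.Cardinal.Arithmetic

/-! P307 (helper582): closing off in direct sums of copies; codes of small modules. -/

universe u

namespace Vale.Agent.P307.H582

open Cardinal

theorem exists_closed_set {I : Type u} {l : Cardinal.{u}} (hl : ℵ₀ ≤ l) (r : I → I → Prop)
    (hr : ∀ i, #{j | r i j} ≤ l) (X : Set I) (hX : #X ≤ l) :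
    ∃ Y : Set I, X ⊆ Y ∧ #Y ≤ l ∧ ∀ i ∈ Y, ∀ j, r i j → j ∈ Y := by
  obtain ⟨F, h0, hS⟩ : ∃ F : ℕ → Set I, F 0 = X ∧ ∀ n, F (n + 1) = ⋃ i : F n, {j | r i.1 j} :=
    ⟨fun n => Nat.rec X (fun _ Y => ⋃ i : Y, {j | r i.1 j}) n, rfl, fun _ => rfl⟩
  have hF : ∀ n, #(↥(F n)) ≤ l := by
    intro n
    induction n with
    | zero =>
      rw [h0]
      exact hX
    | succ n ih =>
      rw [hS]
      have h2 : (⨆ i : F n, #(↥{j | r i.1 j})) ≤ l := ciSup_le' fun i => hr i.1
      have h3 : #(↥(⋃ i : F n, {j | r i.1 j})) ≤ #(↥(F n)) * ⨆ i : F n, #(↥{j | r i.1 j}) :=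
        mk_iUnion_le (fun i : F n => {j | r i.1 j})
      have h4 : #(↥(F n)) * (⨆ i : F n, #(↥{j | r i.1 j})) ≤ l * l := mul_le_mul' ih h2
      exact h3.trans (h4.trans (mul_eq_self hl).le)
  refine ⟨⋃ n : ULift.{u} ℕ, F n.down, fun x hx => Set.mem_iUnion.2 ⟨⟨0⟩, by rw [h0]; exact hx⟩,
    ?_, ?_⟩
  · have h1 : #(ULift.{u} ℕ) ≤ l := by
      rw [mk_uLift, mk_nat, lift_aleph0]
      exact hl
    have h2 : (⨆ n : ULift.{u} ℕ, #(↥(F n.down))) ≤ l := ciSup_le' fun i => hF i.down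
    have h3 : #(↥(⋃ n : ULift.{u} ℕ, F n.down)) ≤
        #(ULift.{u} ℕ) * ⨆ n : ULift.{u} ℕ, #(↥(F n.down)) :=
      mk_iUnion_le (fun n : ULift.{u} ℕ => F n.down)
    have h4 : #(ULift.{u} ℕ) * (⨆ n : ULift.{u} ℕ, #(↥(F n.down))) ≤ l * l := mul_le_mul' h1 h2
    exact h3.trans (h4.trans (mul_eq_self hl).le)
  · intro i hi j hij
    obtain ⟨n, hn⟩ := Set.mem_iUnion.1 hi
    refine Set.mem_iUnion.2 ⟨⟨n.down + 1⟩, ?_⟩
    rw [hS]
    exact Set.mem_iUnion.2 ⟨⟨i, hn⟩, hij⟩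

section

variable {R : Type u} [Ring R] {A B I : Type u} [AddCommGroup A] [Module R A] [AddCommGroup B]
  [Module R B]

theorem map_supported (φ : (I →₀ A) →ₗ[R] (I →₀ B)) (Y : Set I)
    (hY : ∀ i ∈ Y, ∀ (a : A), ∀ j ∈ (φ (Finsupp.single i a)).support, j ∈ Y) {x : I →₀ A}
    (hx : x ∈ Finsupp.supported A R Y) : φ x ∈ Finsupp.supported B R Y := by
  have h1 : φ x = x.sum fun i a => φ (Finsupp.single i a) := by
    conv_lhs => rw [← Finsupp.sum_single x]
    rw [map_finsuppSum]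
  rw [h1]
  refine Submodule.sum_mem _ fun i hi => ?_
  rw [Finsupp.mem_supported]
  intro j hj
  exact hY i ((Finsupp.mem_supported R x).1 hx hi) (x i) j hj

theorem mk_reach_le {l : Cardinal.{u}} (hl : ℵ₀ ≤ l) (hA : #A ≤ l) (φ : (I →₀ A) →ₗ[R] (I →₀ B))
    (i : I) : #{j | ∃ a : A, j ∈ (φ (Finsupp.single i a)).support} ≤ l := by
  have h1 : {j | ∃ a : A, j ∈ (φ (Finsupp.single i a)).support} =
      ⋃ a : A, ((φ (Finsupp.single i a)).support : Set I) := by
    ext j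
    simp only [Set.mem_ofPred_eq, Set.mem_iUnion, Finset.mem_coe]
  rw [h1]
  refine (mk_iUnion_le _).trans ?_
  refine (mul_le_mul' hA (ciSup_le' fun a => ?_)).trans (mul_eq_self hl).le
  exact (Cardinal.lt_aleph0_of_finite _).le.trans hl

/-- Closing off: isomorphic large powers of small modules have isomorphic small powers. -/
theorem closing_off {Λ : Type u} (hΛ : ℵ₀ ≤ #Λ) (hA : #A ≤ #Λ) (hB : #B ≤ #Λ) (hI : #Λ ≤ #I)
    (φ : (I →₀ A) ≃ₗ[R] (I →₀ B)) : Nonempty ((Λ →₀ A) ≃ₗ[R] (Λ →₀ B)) := by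
  obtain ⟨X, hX⟩ : ∃ X : Set I, #X = #Λ := le_mk_iff_exists_set.1 hI
  obtain ⟨Y, hXY, hYl, hY⟩ := exists_closed_set hΛ (fun i j =>
    (∃ a : A, j ∈ (φ (Finsupp.single i a)).support) ∨
      ∃ b : B, j ∈ (φ.symm (Finsupp.single i b)).support) (fun i => by
    refine (mk_union_le _ _).trans (add_le_of_le hΛ ?_ ?_)
    · exact mk_reach_le hΛ hA φ.toLinearMap i
    · exact mk_reach_le hΛ hB φ.symm.toLinearMap i) X hX.le
  have hYeq : #Y = #Λ := le_antisymm hYl (hX.symm.le.trans (mk_le_mk_of_subset hXY))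
  obtain ⟨e⟩ := Cardinal.eq.1 hYeq
  have hmap : (Finsupp.supported A R Y).map φ.toLinearMap = Finsupp.supported B R Y := by
    apply le_antisymm
    · rintro _ ⟨x, hx, rfl⟩
      exact map_supported φ.toLinearMap Y (fun i hi a j hj => hY i hi j (Or.inl ⟨a, hj⟩)) hx
    · intro y hy
      refine ⟨φ.symm y, ?_, φ.apply_symm_apply y⟩
      exact map_supported φ.symm.toLinearMap Y (fun i hi b j hj => hY i hi j (Or.inr ⟨b, hj⟩)) hy
  exact ⟨(Finsupp.domLCongr e.symm).trans ((Finsupp.supportedEquivFinsupp Y).symm.trans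
    ((φ.ofSubmodules _ _ hmap).trans ((Finsupp.supportedEquivFinsupp Y).trans
      (Finsupp.domLCongr e))))⟩

end

/-- the codes of modules over `R` with at most `#Λ` elements -/
abbrev ModCode (R Λ : Type u) : Type u := Set Λ × Set (Λ × Λ × Λ) × Set (R × Λ × Λ)

theorem mk_modCode_le {R Λ : Type u} (hΛ : ℵ₀ ≤ #Λ) (hR : #R ≤ #Λ) :
    #(ModCode R Λ) ≤ 2 ^ #Λ := by
  have h2 : ℵ₀ ≤ (2 : Cardinal.{u}) ^ #Λ := hΛ.trans (cantor _).le
  have h3 : #(Λ × Λ × Λ) ≤ #Λ := by
    simp only [mk_prod, lift_id]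
    exact (mul_le_mul' le_rfl (mul_eq_self hΛ).le).trans (mul_eq_self hΛ).le
  have h4 : #(R × Λ × Λ) ≤ #Λ := by
    simp only [mk_prod, lift_id]
    exact (mul_le_mul' hR (mul_eq_self hΛ).le).trans (mul_eq_self hΛ).le
  rw [mk_prod, mk_prod, mk_set, mk_set, mk_set]
  simp only [lift_id]
  refine (mul_le_mul' le_rfl (mul_le_mul' (power_le_power_left two_ne_zero h3)
    (power_le_power_left two_ne_zero h4))).trans ?_
  rw [mul_eq_self h2, mul_eq_self h2]

/-- Small modules are coded. -/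
theorem exists_modCode {R Λ J : Type u} [Ring R] (C : J → Type u) [∀ j, AddCommGroup (C j)]
    [∀ j, Module R (C j)] (hC : ∀ j, #(C j) ≤ #Λ) :
    ∃ c : J → ModCode R Λ, ∀ j j', c j = c j' → Nonempty (C j ≃ₗ[R] C j') := by
  have h1 : ∀ j, Nonempty (C j ↪ Λ) := fun j => (Cardinal.le_def _ _).1 (hC j)
  let g : ∀ j, C j ↪ Λ := fun j => (h1 j).some
  refine ⟨fun j => (Set.range (g j), {p | ∃ x y : C j, p = (g j x, g j y, g j (x + y))},
    {p | ∃ (r : R) (x : C j), p = (r, g j x, g j (r • x))}), ?_⟩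
  intro j j' h
  have ha := (Prod.ext_iff.1 h).1
  have hb := (Prod.ext_iff.1 (Prod.ext_iff.1 h).2).1
  have hc := (Prod.ext_iff.1 (Prod.ext_iff.1 h).2).2
  simp only at ha hb hc
  have hf : ∀ x : C j, ∃ y : C j', g j' y = g j x := by
    intro x
    have h2 : g j x ∈ Set.range (g j) := ⟨x, rfl⟩
    rw [ha] at h2
    exact h2
  choose f hf using hf
  have hf2 : ∀ y : C j', ∃ x : C j, f x = y := by
    intro y
    have h2 : g j' y ∈ Set.range (g j') := ⟨y, rfl⟩
    rw [← ha] at h2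
    obtain ⟨x, hx⟩ := h2
    exact ⟨x, (g j').injective ((hf x).trans hx)⟩
  have hfinj : Function.Injective f := by
    intro x y hxy
    apply (g j).injective
    rw [← hf x, ← hf y, hxy]
  let F : C j →ₗ[R] C j' :=
    { toFun := f
      map_add' := by
        intro x y
        have h2 : (g j x, g j y, g j (x + y)) ∈
            {p | ∃ x y : C j, p = (g j x, g j y, g j (x + y))} := ⟨x, y, rfl⟩
        rw [hb] at h2
        obtain ⟨x', y', h3⟩ := h2
        have h4 := Prod.ext_iff.1 h3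
        have h5 := Prod.ext_iff.1 h4.2
        have h6 : x' = f x := (g j').injective (h4.1.symm.trans (hf x).symm)
        have h7 : y' = f y := (g j').injective (h5.1.symm.trans (hf y).symm)
        apply (g j').injective
        rw [hf, ← h6, ← h7]
        exact h5.2
      map_smul' := by
        intro r x
        have h2 : (r, g j x, g j (r • x)) ∈
            {p | ∃ (r : R) (x : C j), p = (r, g j x, g j (r • x))} := ⟨r, x, rfl⟩
        rw [hc] at h2
        obtain ⟨r', x', h3⟩ := h2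
        have h4 := Prod.ext_iff.1 h3
        have h5 := Prod.ext_iff.1 h4.2
        have h6 : r = r' := h4.1
        have h7 : x' = f x := (g j').injective (h5.1.symm.trans (hf x).symm)
        apply (g j').injective
        rw [hf, RingHom.id_apply, ← h7, h6]
        rw [h6] at h5
        exact h5.2 }
  exact ⟨LinearEquiv.ofBijective F ⟨hfinj, hf2⟩⟩

end Vale.Agent.P307.H582
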