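import Vale.Agent.P307.H582.ModA

/-! P307 (helper582): Kaplansky's theorem on direct summands of direct sums of small modules. -/

universe u

namespace Vale.Agent.P307.H582

open Cardinal DirectSum

theorem mk_supported_le {R M I : Type u} [Ring R] [AddCommGroup M] [Module R M] {l : Cardinal.{u}}
    (hl : ℵ₀ ≤ l) (hM : #M ≤ l) (X : Set I) (hX : #X ≤ l) : #(Finsupp.supported M R X) ≤ l := by
  classical
  rw [mk_congr (Finsupp.supportedEquivFinsupp (M := M) (R := R) X).toEquiv]
  have h1 : #(X →₀ M) ≤ #(List (X × M)) := by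
    refine mk_le_of_injective (f := fun x => (Finsupp.graph x).toList) ?_
    intro x y h
    apply Finsupp.graph_injective
    have h2 : (Finsupp.graph x).toList.toFinset = (Finsupp.graph y).toList.toFinset :=
      congrArg List.toFinset h
    rwa [Finset.toList_toFinset, Finset.toList_toFinset] at h2
  refine h1.trans ((mk_list_le_max _).trans (max_le hl ?_))
  rw [mk_prod, lift_id, lift_id]
  exact (mul_le_mul' hX hM).trans (mul_eq_self hl).le

/-- Kaplansky's theorem: a direct summand of a direct sum of small modules is a direct sum of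
small modules. -/
theorem kaplansky {R : Type u} [Ring R] {M N : Type u} [AddCommGroup M] [Module R M]
    [AddCommGroup N] [Module R N] {I : Type u} {l : Cardinal.{u}} (hl : ℵ₀ ≤ l) (hM : #M ≤ l)
    (ι : N →ₗ[R] (I →₀ M)) (π : (I →₀ M) →ₗ[R] N) (h : ∀ x, π (ι x) = x) :
    ∃ (_ : DecidableEq I) (C : I → Submodule R N), (∀ i, #(C i) ≤ l) ∧ IsInternal C := by
  classical
  obtain ⟨_, _⟩ := exists_wellFoundedLT I
  have h1 : ∀ i : I, ∃ Y : Set I, i ∈ Y ∧ #Y ≤ l ∧ ∀ k ∈ Y, ∀ j,
      (∃ m : M, j ∈ ((ι ∘ₗ π) (Finsupp.single k m)).support) → j ∈ Y := by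
    intro i
    obtain ⟨Y, hY1, hY2, hY3⟩ := exists_closed_set hl (fun k j =>
      ∃ m : M, j ∈ ((ι ∘ₗ π) (Finsupp.single k m)).support) (fun k => mk_reach_le hl hM _ k) {i} (by
        rw [mk_singleton]
        exact one_le_aleph0.trans hl)
    exact ⟨Y, hY1 rfl, hY2, hY3⟩
  choose cl hcl1 hcl2 hcl3 using h1
  let E : I → Set I := fun i => ⋃ j : {j // j ≤ i}, cl j.1
  let D : I → Set I := fun i => ⋃ j : {j // j < i}, cl j.1
  have hDE : ∀ i, D i ⊆ E i := by
    intro i x hx
    obtain ⟨j, hj⟩ := Set.mem_iUnion.1 hx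
    exact Set.mem_iUnion.2 ⟨⟨j.1, j.2.le⟩, hj⟩
  have hED : ∀ j i, j < i → E j ⊆ D i := by
    intro j i hji x hx
    obtain ⟨k, hk⟩ := Set.mem_iUnion.1 hx
    exact Set.mem_iUnion.2 ⟨⟨k.1, k.2.trans_lt hji⟩, hk⟩
  have hEE : ∀ j i, j ≤ i → E j ⊆ E i := by
    intro j i hji x hx
    obtain ⟨k, hk⟩ := Set.mem_iUnion.1 hx
    exact Set.mem_iUnion.2 ⟨⟨k.1, k.2.trans hji⟩, hk⟩
  have hEcl : ∀ i x, x ∈ E i → x ∉ D i → x ∈ cl i := by
    intro i x hx hx'
    obtain ⟨k, hk⟩ := Set.mem_iUnion.1 hx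
    rcases k.2.lt_or_eq with h2 | h2
    · exact absurd (Set.mem_iUnion.2 ⟨⟨k.1, h2⟩, hk⟩) hx'
    · rw [← h2]
      exact hk
  have hiE : ∀ i, i ∈ E i := fun i => Set.mem_iUnion.2 ⟨⟨i, le_rfl⟩, hcl1 i⟩
  have hcD : ∀ i x, x ∈ Finsupp.supported M R (D i) → ι (π x) ∈ Finsupp.supported M R (D i) := by
    intro i x hx
    refine map_supported (ι ∘ₗ π) (D i) (fun k hk a j hj => ?_) hx
    obtain ⟨k', hk'⟩ := Set.mem_iUnion.1 hk
    exact Set.mem_iUnion.2 ⟨k', hcl3 k'.1 k hk' j ⟨a, hj⟩⟩
  let ρ : I → (I →₀ M) →ₗ[R] (I →₀ M) := fun i =>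
    (Finsupp.supported M R (D i)).subtype ∘ₗ Finsupp.restrictDom M R (D i)
  have hρ1 : ∀ i x, ρ i x ∈ Finsupp.supported M R (D i) := fun i x =>
    (Finsupp.restrictDom M R (D i) x).2
  have hρ : ∀ i x k, ρ i x k = if k ∈ D i then x k else 0 := by
    intro i x k
    change (Finsupp.restrictDom M R (D i) x : I →₀ M) k = _
    rw [Finsupp.restrictDom_apply, Finsupp.filter_apply]
  have hρ2 : ∀ i x, x ∈ Finsupp.supported M R (D i) → ρ i x = x := by
    intro i x hx
    ext k
    rw [hρ]
    split_ifs with hk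
    · rfl
    · by_contra hne
      exact hk ((Finsupp.mem_supported R x).1 hx (Finsupp.mem_support_iff.2 (Ne.symm hne)))
  let NE : I → Submodule R N := fun i => (Finsupp.supported M R (E i)).comap ι
  let ND : I → Submodule R N := fun i => (Finsupp.supported M R (D i)).comap ι
  have hNDE : ∀ i, ND i ≤ NE i := fun i =>
    Submodule.comap_mono (Finsupp.supported_mono (M := M) (R := R) (hDE i))
  have hNED : ∀ j i, j < i → NE j ≤ ND i := fun j i hji =>
    Submodule.comap_mono (Finsupp.supported_mono (M := M) (R := R) (hED j i hji))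
  let θ : I → N →ₗ[R] N := fun i => π ∘ₗ ρ i ∘ₗ ι
  have hθ1 : ∀ i y, θ i y ∈ ND i := fun i y => hcD i _ (hρ1 i (ι y))
  have hθ2 : ∀ i y, y ∈ ND i → θ i y = y := by
    intro i y hy
    change π (ρ i (ι y)) = y
    rw [hρ2 i _ hy, h]
  let C : I → Submodule R N := fun i => NE i ⊓ LinearMap.ker (θ i)
  have hfin : ∀ i (s : Finset I), (∀ k ∈ s, k ∈ D i) → s = ∅ ∨ ∃ j < i, ∀ k ∈ s, k ∈ E j := by
    intro i s
    induction s using Finset.induction_on with
    | empty => exact fun _ => Or.inl rfl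
    | insert a s _ ih =>
      intro hs
      right
      obtain ⟨⟨j, hj⟩, haj⟩ := Set.mem_iUnion.1 (hs a (Finset.mem_insert_self _ _))
      have haj' : a ∈ E j := Set.mem_iUnion.2 ⟨⟨j, le_rfl⟩, haj⟩
      rcases ih fun k hk => hs k (Finset.mem_insert_of_mem hk) with h2 | ⟨j', hj', h2⟩
      · refine ⟨j, hj, fun k hk => ?_⟩
        rcases Finset.mem_insert.1 hk with h3 | h3
        · rw [h3]
          exact haj'
        · rw [h2] at h3
          exact absurd h3 (Finset.notMem_empty _)
      · refine ⟨max j j', max_lt hj hj', fun k hk => ?_⟩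
        rcases Finset.mem_insert.1 hk with h3 | h3
        · rw [h3]
          exact hEE _ _ (le_max_left _ _) haj'
        · exact hEE _ _ (le_max_right _ _) (h2 k h3)
  have hNDE' : ∀ i y, y ∈ ND i → y = 0 ∨ ∃ j < i, y ∈ NE j := by
    intro i y hy
    have hy' : ι y ∈ Finsupp.supported M R (D i) := hy
    rcases hfin i (ι y).support (fun k hk => (Finsupp.mem_supported R (ι y)).1 hy' hk) with
      h2 | ⟨j, h2, h3⟩
    · left
      rw [← h y, Finsupp.support_eq_empty.1 h2, map_zero]
    · exact Or.inr ⟨j, h2, (Finsupp.mem_supported R (ι y)).2 fun k hk => h3 k hk⟩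
  have hNE : ∀ i, NE i ≤ ⨆ j, C j := by
    intro i
    induction i using WellFoundedLT.induction with
    | ind i ih =>
      intro y hy
      have h2 : y - θ i y ∈ C i := by
        refine ⟨(NE i).sub_mem hy (hNDE i (hθ1 i y)), ?_⟩
        change θ i (y - θ i y) = 0
        rw [map_sub, hθ2 i _ (hθ1 i y), sub_self]
      have h3 : θ i y ∈ ⨆ j, C j := by
        rcases hNDE' i _ (hθ1 i y) with h4 | ⟨j, hj, h4⟩
        · rw [h4]
          exact Submodule.zero_mem _
        · exact ih j hj h4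
      have h4 := Submodule.add_mem _ (Submodule.mem_iSup_of_mem i h2) h3
      rwa [sub_add_cancel] at h4
  have htop : (⨆ j, C j) = ⊤ := by
    rw [eq_top_iff]
    intro y _
    by_cases h2 : (ι y).support.Nonempty
    · refine hNE ((ι y).support.max' h2) ((Finsupp.mem_supported R _).2 fun k hk => ?_)
      exact hEE _ _ (Finset.le_max' _ k hk) (hiE k)
    · rw [Finset.not_nonempty_iff_eq_empty] at h2
      rw [← h y, Finsupp.support_eq_empty.1 h2, map_zero]
      exact Submodule.zero_mem _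
  refine ⟨inferInstance, C, ?_, ?_⟩
  · intro i
    refine le_trans ?_ (mk_supported_le (R := R) hl hM (cl i) (hcl2 i))
    have h2 : ∀ y : C i, ∃ b : Finsupp.supported M R (cl i), π b.1 = y.1 := by
      rintro ⟨y, hy1, hy2⟩
      refine ⟨⟨ι y - ρ i (ι y), (Finsupp.mem_supported R _).2 fun k hk => ?_⟩, ?_⟩
      · have hk' := Finsupp.mem_support_iff.1 (Finset.mem_coe.1 hk)
        rw [Finsupp.sub_apply, hρ] at hk'
        by_cases hkD : k ∈ D i
        · rw [if_pos hkD, sub_self] at hk'
          exact absurd rfl hk'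
        · rw [if_neg hkD, sub_zero] at hk'
          exact hEcl i k ((Finsupp.mem_supported R _).1 hy1 (Finsupp.mem_support_iff.2 hk')) hkD
      · change π (ι y - ρ i (ι y)) = y
        rw [map_sub, h]
        have h3 : π (ρ i (ι y)) = 0 := hy2
        rw [h3, sub_zero]
    choose f hf using h2
    refine mk_le_of_injective (f := f) fun y z hyz => Subtype.ext ?_
    rw [← hf y, ← hf z, hyz]
  · rw [isInternal_submodule_iff_iSupIndep_and_iSup_eq_top]
    refine ⟨?_, htop⟩
    refine iSupIndep_of_dfinsupp_lsum_injective C ?_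
    rw [← LinearMap.ker_eq_bot, LinearMap.ker_eq_bot']
    intro v hv
    by_contra hne
    have hsup : v.support.Nonempty := by
      rw [Finset.nonempty_iff_ne_empty]
      intro h2
      exact hne (DFinsupp.support_eq_empty.1 h2)
    let i := v.support.max' hsup
    have hi : i ∈ v.support := Finset.max'_mem _ _
    have hsum : ∑ j ∈ v.support, (v j : N) = 0 := by
      rw [DFinsupp.lsum_apply_apply, DFinsupp.sumAddHom_apply] at hv
      exact hv
    have h2 : (v i : N) = - ∑ j ∈ v.support.erase i, (v j : N) := by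
      rw [← Finset.add_sum_erase _ _ hi] at hsum
      exact eq_neg_of_add_eq_zero_left hsum
    have h3 : (v i : N) ∈ ND i := by
      rw [h2]
      refine (ND i).neg_mem (Submodule.sum_mem _ fun j hj => ?_)
      have hj1 := Finset.mem_erase.1 hj
      have hji : j < i := lt_of_le_of_ne (Finset.le_max' _ j hj1.2) hj1.1
      exact hNED j i hji (v j).2.1
    have h4 : θ i (v i : N) = 0 := (v i).2.2
    rw [hθ2 i _ h3] at h4
    exact (DFinsupp.mem_support_iff.1 hi) (Subtype.ext h4)

end Vale.Agent.P307.H582
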