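import Mathlib.Algebra.DirectSum.Module
import Mathlib.Algebra.DirectSum.Finsupp
import Mathlib.SetTheory.Cardinal.Arithmetic

/-! P307 (helper582): grouping the summands of a direct sum of small modules. -/

universe u

namespace Vale.Agent.P307.H582

open Cardinal DirectSum

section fiber

variable {R : Type u} [Ring R] {J B : Type u} (C : J → Type u) [∀ j, AddCommGroup (C j)]
  [∀ j, Module R (C j)]

/-- regrouping a direct sum -/
theorem regroup (p : J → B) :
    Nonempty ((⨁ j, C j) ≃ₗ[R] ⨁ b, ⨁ j : {j // p j = b}, C j.1) := by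
  classical
  exact ⟨(lequivCongrLeft R (M := C) (Equiv.sigmaFiberEquiv p).symm).trans
    (sigmaLcurryEquiv R (δ := fun b (j : {j // p j = b}) => C j.1))⟩

theorem reindex {J' : Type u} (e : J' ≃ J) : Nonempty ((⨁ j, C j) ≃ₗ[R] ⨁ j', C (e j')) :=
  ⟨lequivCongrLeft R (M := C) e.symm⟩

theorem mapRange_nonempty (D : J → Type u) [∀ j, AddCommGroup (D j)] [∀ j, Module R (D j)]
    (h : ∀ j, Nonempty (C j ≃ₗ[R] D j)) : Nonempty ((⨁ j, C j) ≃ₗ[R] ⨁ j, D j) :=
  ⟨DFinsupp.mapRange.linearEquiv fun j => (h j).some⟩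

end fiber

section main

variable {R : Type u} [Ring R]

/-- constant families -/
theorem const_sum {J : Type u} (M : Type u) [AddCommGroup M] [Module R M] :
    Nonempty ((⨁ _ : J, M) ≃ₗ[R] (J →₀ M)) := by
  classical
  exact ⟨(finsuppLEquivDirectSum R M J).symm⟩

/-- absorption -/
theorem absorb {Λ : Type u} (hΛ : ℵ₀ ≤ #Λ) {C M : Type u} [AddCommGroup C] [Module R C]
    [AddCommGroup M] [Module R M] (h : Nonempty ((Λ →₀ C) ≃ₗ[R] M)) :
    Nonempty ((C × M) ≃ₗ[R] M) := by
  classical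
  obtain ⟨h⟩ := h
  have hO : #(Option Λ) = #Λ := by
    rw [mk_option, add_one_eq hΛ]
  obtain ⟨e⟩ := Cardinal.eq.1 hO
  obtain ⟨f1⟩ := const_sum (R := R) (J := Option Λ) C
  obtain ⟨f2⟩ := const_sum (R := R) (J := Λ) C
  have g : (⨁ _ : Option Λ, C) ≃ₗ[R] C × ⨁ _ : Λ, C :=
    lequivProdDirectSum R (α := fun _ : Option Λ => C)
  exact ⟨((LinearEquiv.refl R C).prodCongr (h.symm.trans f2.symm)).trans
    (g.symm.trans (f1.trans ((Finsupp.domLCongr e).trans h)))⟩

/-- splitting a set into blocks of constant colour -/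
theorem exists_blocks {J Q Λ : Type u} (c : J → Q) (hΛ : ℵ₀ ≤ #Λ)
    (h : ∀ j, #Λ ≤ #{j' // c j' = c j}) : ∃ e : J ≃ J × Λ, ∀ j, c (e j).1 = c j := by
  classical
  have h1 : ∀ q, Nonempty ({j // c j = q} ≃ {j // c j = q} × Λ) := by
    intro q
    rcases isEmpty_or_nonempty {j // c j = q} with h2 | ⟨⟨j, hj⟩⟩
    · exact ⟨Equiv.equivOfIsEmpty _ _⟩
    · subst hj
      refine Cardinal.eq.1 ?_
      rw [mk_prod, lift_id, lift_id, mul_eq_left (hΛ.trans (h j)) (h j)
        (aleph0_pos.trans_le hΛ).ne']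
  let e : ∀ q, {j // c j = q} ≃ {j // c j = q} × Λ := fun q => (h1 q).some
  exact ⟨(Equiv.sigmaFiberEquiv c).symm.trans ((Equiv.sigmaCongrRight e).trans
    ((Equiv.sigmaProdDistrib _ Λ).symm.trans
      ((Equiv.sigmaFiberEquiv c).prodCongr (Equiv.refl Λ)))), fun j => (e (c j) ⟨j, rfl⟩).1.2⟩

/-- The grouping theorem: a direct sum of more than `2 ^ l` modules which are absorbed by `M`; the
`l`-fold power of each module which occurs more than `l` times is isomorphic to `M`. -/
theorem sum_equiv {J Q Λ : Type u} (hΛ : ℵ₀ ≤ #Λ) (C : J → Type u) [∀ j, AddCommGroup (C j)]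
    [∀ j, Module R (C j)] (M : Type u) [AddCommGroup M] [Module R M] (c : J → Q)
    (hC : ∀ j, #Λ < #{j' // c j' = c j} → Nonempty ((Λ →₀ C j) ≃ₗ[R] M))
    (habs : ∀ j, Nonempty ((C j × M) ≃ₗ[R] M))
    (hc : ∀ j j', c j = c j' → Nonempty (C j ≃ₗ[R] C j')) (hQ : #Q ≤ 2 ^ #Λ)
    (hJ : 2 ^ #Λ < #J) : Nonempty ((⨁ j, C j) ≃ₗ[R] (J →₀ M)) := by
  classical
  have h2 : ℵ₀ ≤ (2 : Cardinal.{u}) ^ #Λ := hΛ.trans (cantor _).le
  have hJ0 : ℵ₀ ≤ #J := h2.trans hJ.le
  let Big : Type u := {j // #Λ < #{j' // c j' = c j}}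
  let Small : Type u := {j // ¬ #Λ < #{j' // c j' = c j}}
  -- the small part
  have hSmall : #Small ≤ 2 ^ #Λ := by
    have h3 : ∀ q : Q, #{s : Small // c s.1 = q} ≤ #Λ := by
      intro q
      rcases isEmpty_or_nonempty {s : Small // c s.1 = q} with h4 | ⟨⟨s, hs⟩⟩
      · rw [mk_eq_zero]
        exact zero_le
      · subst hs
        refine le_trans ?_ (not_lt.1 s.2)
        exact mk_le_of_injective (f := fun t : {t : Small // c t.1 = c s.1} =>
          (⟨t.1.1, t.2⟩ : {j' // c j' = c s.1})) fun t t' h => by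
            have h5 := congrArg Subtype.val h
            exact Subtype.ext (Subtype.ext h5)
    rw [mk_congr (Equiv.sigmaFiberEquiv (fun s : Small => c s.1)).symm, mk_sigma]
    refine (sum_le_mk_mul_iSup _).trans ?_
    refine (mul_le_mul' hQ (ciSup_le' h3)).trans ?_
    exact (mul_le_mul' le_rfl (cantor _).le).trans (mul_eq_self h2).le
  have hBig : #Big = #J := by
    have h3 : #Big + #Small = #J := by
      rw [← mk_congr (Equiv.sumCompl (fun j => #Λ < #{j' // c j' = c j})), mk_sum, lift_id, lift_id]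
    apply le_antisymm
    · exact mk_le_of_injective Subtype.val_injective
    · by_contra hcon
      rw [not_le] at hcon
      have h4 : #Big + #Small < #J := add_lt_of_lt hJ0 hcon (hSmall.trans_lt hJ)
      rw [h3] at h4
      exact lt_irrefl _ h4
  -- the blocks
  obtain ⟨e, he⟩ := exists_blocks (fun b : Big => c b.1) hΛ (fun b => by
    refine b.2.le.trans ?_
    refine mk_le_of_injective (f := fun t : {j' // c j' = c b.1} =>
      (⟨⟨t.1, by rw [t.2]; exact b.2⟩, t.2⟩ : {b' : Big // c b'.1 = c b.1})) fun t t' h => ?_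
    have h5 := congrArg (fun x => x.1.1) h
    exact Subtype.ext h5)
  obtain ⟨σ⟩ : Nonempty (Small ↪ Big) := by
    rw [← Cardinal.le_def, hBig]
    exact hSmall.trans hJ.le
  let p : J → Big := fun j => if h : #Λ < #{j' // c j' = c j} then (e ⟨j, h⟩).1 else σ ⟨j, h⟩
  have hp1 : ∀ b : Big, p b.1 = (e b).1 := fun b => dif_pos b.2
  have hp2 : ∀ s : Small, p s.1 = σ s := fun s => dif_neg s.2
  -- the points of the block of `b`
  let g : ∀ b : Big, Λ → {j // p j = b} := fun b x =>
    ⟨(e.symm (b, x)).1, by rw [hp1, e.apply_symm_apply]⟩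
  have hg : ∀ b x, c (g b x).1 = c b.1 := by
    intro b x
    have h3 := he (e.symm (b, x))
    rw [e.apply_symm_apply] at h3
    exact h3.symm
  have hginj : ∀ b, Function.Injective (g b) := by
    intro b x y h
    have h3 : (e.symm (b, x)).1 = (e.symm (b, y)).1 :=
      congrArg (fun z : {j // p j = b} => z.1) h
    have h4 := e.symm.injective (Subtype.ext h3)
    exact (Prod.ext_iff.1 h4).2
  have hgsurj : ∀ (b : Big) (j : {j // p j = b}), #Λ < #{j' // c j' = c j.1} → ∃ x, g b x = j := by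
    rintro b ⟨j, hj⟩ hjB
    refine ⟨(e ⟨j, hjB⟩).2, Subtype.ext ?_⟩
    have h3 : (e ⟨j, hjB⟩).1 = b := (hp1 ⟨j, hjB⟩).symm.trans hj
    change (e.symm (b, (e ⟨j, hjB⟩).2)).1 = j
    rw [← h3]
    change (e.symm (e ⟨j, hjB⟩)).1 = j
    rw [e.symm_apply_apply]
  -- the sum over the block
  have hblock : ∀ b, Nonempty ((⨁ x : Λ, C (g b x).1) ≃ₗ[R] M) := by
    intro b
    obtain ⟨f1⟩ := mapRange_nonempty (R := R) (fun x : Λ => C (g b x).1) (fun _ => C b.1)
      (fun x => hc _ _ (hg b x))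
    obtain ⟨f2⟩ := const_sum (R := R) (J := Λ) (C b.1)
    obtain ⟨f3⟩ := hC b.1 b.2
    exact ⟨f1.trans (f2.trans f3)⟩
  have hfib : ∀ b, Nonempty ((⨁ j : {j // p j = b}, C j.1) ≃ₗ[R] M) := by
    intro b
    by_cases hs : ∃ s : Small, σ s = b
    · obtain ⟨s, hs⟩ := hs
      let G : Option Λ → {j // p j = b} := fun o =>
        Option.elim o ⟨s.1, (hp2 s).trans hs⟩ (g b)
      have hG : Function.Bijective G := by
        constructor
        · rintro (_ | x) (_ | y) h
          · rfl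
          · exfalso
            have h3 : s.1 = (e.symm (b, y)).1 := congrArg (fun z : {j // p j = b} => z.1) h
            apply s.2
            rw [h3]
            exact (e.symm (b, y)).2
          · exfalso
            have h3 : (e.symm (b, x)).1 = s.1 := congrArg (fun z : {j // p j = b} => z.1) h
            apply s.2
            rw [← h3]
            exact (e.symm (b, x)).2
          · exact congrArg some (hginj b h)
        · intro j
          by_cases hj : #Λ < #{j' // c j' = c j.1}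
          · obtain ⟨x, hx⟩ := hgsurj b j hj
            exact ⟨some x, hx⟩
          · refine ⟨none, Subtype.ext ?_⟩
            have h3 : σ ⟨j.1, hj⟩ = b := (hp2 ⟨j.1, hj⟩).symm.trans j.2
            have h4 := σ.injective (h3.trans hs.symm)
            exact (congrArg Subtype.val h4).symm
      obtain ⟨f1⟩ := reindex (R := R) (fun j : {j // p j = b} => C j.1) (Equiv.ofBijective G hG)
      have f2 : (⨁ o : Option Λ, C (G o).1) ≃ₗ[R] C (G none).1 × ⨁ x : Λ, C (G (some x)).1 :=
        lequivProdDirectSum R (α := fun o : Option Λ => C (G o).1)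
      obtain ⟨f3⟩ := hblock b
      obtain ⟨f4⟩ := habs s.1
      exact ⟨f1.trans (f2.trans (((LinearEquiv.refl R (C s.1)).prodCongr f3).trans f4))⟩
    · have hG : Function.Bijective (g b) := by
        refine ⟨hginj b, fun j => ?_⟩
        by_cases hj : #Λ < #{j' // c j' = c j.1}
        · exact hgsurj b j hj
        · exact absurd ⟨⟨j.1, hj⟩, (hp2 ⟨j.1, hj⟩).symm.trans j.2⟩ hs
      obtain ⟨f1⟩ := reindex (R := R) (fun j : {j // p j = b} => C j.1) (Equiv.ofBijective _ hG)
      obtain ⟨f3⟩ := hblock b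
      exact ⟨f1.trans f3⟩
  obtain ⟨F1⟩ := regroup (R := R) C p
  obtain ⟨F2⟩ := mapRange_nonempty (R := R) (fun b => ⨁ j : {j // p j = b}, C j.1) (fun _ => M) hfib
  obtain ⟨F3⟩ := const_sum (R := R) (J := Big) M
  obtain ⟨F4⟩ := Cardinal.eq.1 hBig
  exact ⟨F1.trans (F2.trans (F3.trans (Finsupp.domLCongr F4)))⟩

end main

end Vale.Agent.P307.H582
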