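import Vale.Agent.P307.H582.ModC

/-! P307 (helper582): retracts of direct sums, the decomposition method. -/

universe u

namespace Vale.Agent.P307.H582

open Cardinal DirectSum

/-- `A` is a retract of `B`. -/
def Retr (R A B : Type u) [Ring R] [AddCommGroup A] [Module R A] [AddCommGroup B] [Module R B] :
    Prop :=
  ∃ (i : A →ₗ[R] B) (p : B →ₗ[R] A), ∀ x, p (i x) = x

section

variable {R : Type u} [Ring R] {A B C S D Q I Λ : Type u} [AddCommGroup A] [Module R A]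
  [AddCommGroup B] [Module R B] [AddCommGroup C] [Module R C] [AddCommGroup S] [Module R S]
  [AddCommGroup D] [Module R D] [AddCommGroup Q] [Module R Q]

theorem Retr.trans (h : Retr R A B) (h' : Retr R B C) : Retr R A C := by
  obtain ⟨i, p, h⟩ := h
  obtain ⟨i', p', h'⟩ := h'
  exact ⟨i' ∘ₗ i, p ∘ₗ p', fun x => by simp [h, h']⟩

theorem Retr.of_equiv (e : A ≃ₗ[R] B) : Retr R A B :=
  ⟨e.toLinearMap, e.symm.toLinearMap, fun x => e.symm_apply_apply x⟩

theorem Retr.exists_compl (h : Retr R A B) : ∃ (Z : Type u) (_ : AddCommGroup Z) (_ : Module R Z),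
    Nonempty (B ≃ₗ[R] A × Z) := by
  obtain ⟨i, p, h⟩ := h
  refine ⟨LinearMap.ker p, inferInstance, inferInstance, ⟨?_⟩⟩
  refine LinearEquiv.ofLinearMap
    (LinearMap.prod p (LinearMap.codRestrict (LinearMap.ker p) (LinearMap.id - i ∘ₗ p) ?_))
    (LinearMap.coprod i (LinearMap.ker p).subtype) ?_ ?_
  · intro x
    simp [LinearMap.mem_ker, h]
  · ext x
    · simp [h]
    · simp [h]
    · simp
    · simp
  · ext x
    simp

theorem Retr.finsupp (h : Retr R A B) : Retr R (Λ →₀ A) (Λ →₀ B) := by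
  obtain ⟨i, p, h⟩ := h
  refine ⟨Finsupp.mapRange.linearMap i, Finsupp.mapRange.linearMap p, fun x => ?_⟩
  ext k
  simp [h]

/-- finitely supported functions into a product -/
noncomputable def finsuppProd (R Λ A B : Type u) [Ring R] [AddCommGroup A] [Module R A]
    [AddCommGroup B] [Module R B] : (Λ →₀ A × B) ≃ₗ[R] (Λ →₀ A) × (Λ →₀ B) :=
  LinearEquiv.ofLinearMap
    (LinearMap.prod (Finsupp.mapRange.linearMap (LinearMap.fst R A B))
      (Finsupp.mapRange.linearMap (LinearMap.snd R A B)))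
    (LinearMap.coprod (Finsupp.mapRange.linearMap (LinearMap.inl R A B))
      (Finsupp.mapRange.linearMap (LinearMap.inr R A B)))
    (by
      ext <;> simp)
    (by
      ext <;> simp)

/-- a retract is absorbed -/
theorem Retr.absorb (hΛ : ℵ₀ ≤ #Λ) (h : Retr R A B) (hB : Nonempty ((Λ →₀ B) ≃ₗ[R] B)) :
    Nonempty ((A × B) ≃ₗ[R] B) := by
  obtain ⟨Z, _, _, ⟨e⟩⟩ := h.exists_compl
  obtain ⟨f⟩ := hB
  obtain ⟨g⟩ := H582.absorb (R := R) (C := A) (M := Λ →₀ A) hΛ ⟨LinearEquiv.refl R _⟩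
  -- `B ≃ (Λ →₀ A) × (Λ →₀ Z)`
  let e1 : B ≃ₗ[R] (Λ →₀ A) × (Λ →₀ Z) :=
    f.symm.trans ((Finsupp.mapRange.linearEquiv e).trans (finsuppProd R Λ A Z))
  exact ⟨((LinearEquiv.refl R A).prodCongr e1).trans ((LinearEquiv.prodAssoc R A _ _).symm.trans
    ((g.prodCongr (LinearEquiv.refl R _)).trans e1.symm))⟩

/-- the decomposition method -/
theorem Retr.antisymm (hΛ : ℵ₀ ≤ #Λ) (h : Retr R A B) (h' : Retr R B A)
    (hB : Nonempty ((Λ →₀ B) ≃ₗ[R] B)) : Nonempty (A ≃ₗ[R] B) := by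
  obtain ⟨f⟩ := h.absorb hΛ hB
  obtain ⟨Z, _, _, ⟨e⟩⟩ := h'.exists_compl
  obtain ⟨g⟩ := (Retr.of_equiv (LinearEquiv.refl R B)).absorb hΛ hB
  -- `A ≃ B × Z ≃ (B × B) × Z ≃ B × (B × Z) ≃ B × A ≃ A × B ≃ B`
  exact ⟨e.trans ((g.symm.prodCongr (LinearEquiv.refl R Z)).trans
    ((LinearEquiv.prodAssoc R B B Z).trans (((LinearEquiv.refl R B).prodCongr e.symm).trans
      ((LinearEquiv.prodComm R B A).trans f))))⟩

theorem power_power (hΛ : ℵ₀ ≤ #Λ) : Nonempty ((Λ →₀ (Λ →₀ A)) ≃ₗ[R] (Λ →₀ A)) := by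
  have h : #(Λ × Λ) = #Λ := by
    rw [mk_prod, lift_id]
    exact mul_eq_self hΛ
  obtain ⟨e⟩ := Cardinal.eq.1 h
  exact ⟨(Finsupp.curryLinearEquiv R).symm.trans (Finsupp.domLCongr e)⟩

theorem Retr.of_injective {V W : Type u} (g : W → V) (hg : Function.Injective g) :
    Retr R (W →₀ A) (V →₀ A) := by
  refine ⟨Finsupp.lmapDomain A R g, Finsupp.lcomapDomain g hg, fun x => ?_⟩
  exact Finsupp.comapDomain_mapDomain g hg x

/-- small retracts of large powers -/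
theorem Retr.small (hΛ : ℵ₀ ≤ #Λ) (hA : #A ≤ #Λ) (h : Retr R A (I →₀ S)) : Retr R A (Λ →₀ S) := by
  classical
  obtain ⟨i, p, h⟩ := h
  let Y : Set I := ⋃ x : A, ((i x).support : Set I)
  have hY : #Y ≤ #Λ := by
    refine (mk_iUnion_le _).trans ?_
    refine (mul_le_mul' hA (ciSup_le' fun a => ?_)).trans (mul_eq_self hΛ).le
    exact (Cardinal.lt_aleph0_of_finite _).le.trans hΛ
  obtain ⟨g⟩ := (Cardinal.le_def _ _).1 hY
  have hi : ∀ x, i x ∈ Finsupp.supported S R Y := fun x => by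
    rw [Finsupp.mem_supported]
    exact Set.subset_iUnion (fun x : A => ((i x).support : Set I)) x
  refine Retr.trans (B := Y →₀ S) ⟨(Finsupp.supportedEquivFinsupp Y).toLinearMap ∘ₗ
    LinearMap.codRestrict _ i hi, p ∘ₗ (Finsupp.supported S R Y).subtype ∘ₗ
      (Finsupp.supportedEquivFinsupp Y).symm.toLinearMap, fun x => ?_⟩
    (Retr.of_injective g g.injective)
  simp [h]

/-- cancellation of a small summand -/
theorem Retr.cancel (hI : ℵ₀ < #I) (hQ : #Q < #I) (φ : (I →₀ S) ≃ₗ[R] Q × (I →₀ D)) :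
    Retr R S (I →₀ D) := by
  classical
  let Y : Set I := ⋃ x : Q, ((φ.symm (x, 0)).support : Set I)
  have hY : #Y < #I := by
    refine (mk_iUnion_le _).trans_lt ?_
    have h1 : (⨆ x : Q, #((φ.symm (x, 0)).support : Set I)) ≤ ℵ₀ :=
      ciSup_le' fun a => (Cardinal.lt_aleph0_of_finite _).le
    exact (mul_le_mul' le_rfl h1).trans_lt (mul_lt_of_lt hI.le hQ hI)
  obtain ⟨w, hw⟩ : ∃ w, w ∉ Y := by
    by_contra hcon
    push Not at hcon
    have h1 : Y = Set.univ := Set.eq_univ_of_forall hcon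
    rw [h1, mk_univ] at hY
    exact lt_irrefl _ hY
  refine ⟨LinearMap.snd R Q (I →₀ D) ∘ₗ φ.toLinearMap ∘ₗ Finsupp.lsingle w,
    Finsupp.lapply w ∘ₗ φ.symm.toLinearMap ∘ₗ LinearMap.inr R Q (I →₀ D), fun s => ?_⟩
  have h1 : ((0 : Q), (φ (Finsupp.single w s)).2) =
      φ (Finsupp.single w s) - ((φ (Finsupp.single w s)).1, 0) := by
    ext <;> simp
  have h2 : (φ.symm ((φ (Finsupp.single w s)).1, 0)) w = 0 := by
    by_contra hne
    exact hw (Set.mem_iUnion.2 ⟨(φ (Finsupp.single w s)).1, Finsupp.mem_support_iff.2 hne⟩)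
  change (φ.symm ((0 : Q), (φ (Finsupp.single w s)).2)) w = s
  rw [h1, map_sub, φ.symm_apply_apply, Finsupp.sub_apply, h2, Finsupp.single_eq_same, sub_zero]

end

end Vale.Agent.P307.H582
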