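import Vale.Agent.P307.H582.ModB
import Vale.Agent.P307.H582.ModF
import Mathlib.SetTheory.Cardinal.Finsupp

/-! P307 (helper582): large summands of direct sums of copies of a small module. -/

universe u

namespace Vale.Agent.P307.H582

open Cardinal DirectSum

theorem mk_index_of_isInternal {R N J : Type u} [Ring R] [AddCommGroup N] [Module R N]
    [DecidableEq J] {C : J → Submodule R N} (h : IsInternal C) (hne : ∀ j, C j ≠ ⊥)
    {l : Cardinal.{u}} (hl : ℵ₀ ≤ l) (hC : ∀ j, #(C j) ≤ l) (hN : 2 ^ l < #N) : #J = #N := by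
  have h2 : ℵ₀ ≤ (2 : Cardinal.{u}) ^ l := hl.trans (cantor _).le
  rw [isInternal_submodule_iff_iSupIndep_and_iSup_eq_top] at h
  apply le_antisymm
  · have h3 : ∀ j, ∃ x : N, x ∈ C j ∧ x ≠ 0 := fun j => (Submodule.ne_bot_iff _).1 (hne j)
    choose f hf1 hf2 using h3
    refine mk_le_of_injective (f := f) fun i j hij => ?_
    by_contra hne'
    have h4 : Disjoint (C i) (C j) := h.1.pairwiseDisjoint hne'
    have h5 : f i ∈ C i ⊓ C j := ⟨hf1 i, by rw [hij]; exact hf1 j⟩
    rw [h4.eq_bot] at h5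
    exact hf2 i h5
  · have h3 : ∀ y : N, ∃ L : List (Σ j, C j), (L.map fun p => (p.2 : N)).sum = y := by
      intro y
      have hy : y ∈ ⨆ j, C j := by
        rw [h.2]
        trivial
      induction hy using Submodule.iSup_induction' with
      | mem j x hx => exact ⟨[⟨j, ⟨x, hx⟩⟩], by simp⟩
      | zero => exact ⟨[], rfl⟩
      | add x y _ _ hx hy =>
        obtain ⟨L1, h1⟩ := hx
        obtain ⟨L2, h2⟩ := hy
        exact ⟨L1 ++ L2, by rw [List.map_append, List.sum_append, h1, h2]⟩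
    choose g hg using h3
    have h4 : #N ≤ #(List (Σ j, C j)) := mk_le_of_injective (f := g) fun x y hxy => by
      rw [← hg x, ← hg y, hxy]
    have h5 : #(Σ j, C j) ≤ #J * l := by
      rw [mk_sigma]
      refine (sum_le_mk_mul_iSup _).trans ?_
      exact mul_le_mul' le_rfl (ciSup_le' hC)
    have h6 : #N ≤ max ℵ₀ (#J * l) := h4.trans ((mk_list_le_max _).trans (max_le_max le_rfl h5))
    have h7 : 2 ^ l < #J := by
      by_contra hcon
      rw [not_lt] at hcon
      have h8 : #J * l ≤ 2 ^ l := (mul_le_mul' hcon (cantor _).le).trans (mul_eq_self h2).le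
      exact absurd (h6.trans (max_le h2 h8)) (not_le.2 hN)
    have h8 : ℵ₀ ≤ #J := h2.trans h7.le
    have h9 : #J * l ≤ #J := (mul_le_mul' le_rfl ((cantor _).le.trans h7.le)).trans
      (mul_eq_self h8).le
    exact h6.trans (max_le h8 h9)

/-- splitting off the isomorphic copies of one summand -/
theorem exists_split {R J P : Type u} [Ring R] (C : J → Type u) [∀ j, AddCommGroup (C j)]
    [∀ j, Module R (C j)] (c : J → P) (hc : ∀ j j', c j = c j' → Nonempty (C j ≃ₗ[R] C j'))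
    (j₀ : J) : ∃ (Q : Type u) (_ : AddCommGroup Q) (_ : Module R Q),
      Nonempty ((⨁ j, C j) ≃ₗ[R] Q × ({j // c j = c j₀} →₀ C j₀)) := by
  classical
  let V : Type u := {j // c j = c j₀}
  let p : J → Option V := fun j => if h : c j = c j₀ then some ⟨j, h⟩ else none
  have hp1 : ∀ v : V, p v.1 = some v := fun v => dif_pos v.2
  have hp2 : ∀ (j : J) (v : V), p j = some v → j = v.1 := by
    intro j v h
    by_cases h1 : c j = c j₀
    · have h2 : p j = some ⟨j, h1⟩ := dif_pos h1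
      rw [h2] at h
      exact congrArg Subtype.val (Option.some.inj h)
    · have h2 : p j = none := dif_neg h1
      rw [h2] at h
      cases h
  let α : Option V → Type u := fun o => ⨁ j : {j // p j = o}, C j.1
  have hα : ∀ v : V, Nonempty (α (some v) ≃ₗ[R] C j₀) := by
    intro v
    let : Unique {j // p j = some v} :=
      { default := ⟨v.1, hp1 v⟩
        uniq := fun j => Subtype.ext (hp2 j.1 v j.2) }
    obtain ⟨f⟩ := mapRange_nonempty (R := R) (fun j : {j // p j = some v} => C j.1)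
      (fun _ => C j₀) (fun j => hc _ _ (by rw [hp2 j.1 v j.2]; exact v.2))
    exact ⟨f.trans (DirectSum.lid R (C j₀) {j // p j = some v})⟩
  obtain ⟨f1⟩ := regroup (R := R) C p
  have f2 : (⨁ o : Option V, α o) ≃ₗ[R] α none × ⨁ v : V, α (some v) := lequivProdDirectSum R
  obtain ⟨f3⟩ := mapRange_nonempty (R := R) (fun v : V => α (some v)) (fun _ => C j₀) hα
  obtain ⟨f4⟩ := const_sum (R := R) (J := V) (C j₀)
  exact ⟨α none, inferInstance, inferInstance,
    ⟨f1.trans (f2.trans ((LinearEquiv.refl R _).prodCongr (f3.trans f4)))⟩⟩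

/-- A large direct summand `N` of a direct sum of copies of the small module `M` is a direct sum of
copies of `M`, if `M` is a retract of a direct sum of copies of each module `D` such that `N` has a
large direct sum of copies of `D` as a direct summand. -/
theorem summand_equiv {R M N I Λ V : Type u} [Ring R] [AddCommGroup M] [Module R M]
    [AddCommGroup N] [Module R N] (hΛ : ℵ₀ ≤ #Λ) (hR : #R ≤ #Λ) (hM : #M ≤ #Λ)
    (ι : N →ₗ[R] (I →₀ M)) (π : (I →₀ M) →ₗ[R] N) (h : ∀ x, π (ι x) = x) (hN : 2 ^ #Λ < #N)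
    (hA : ∀ (Q D W : Type u) [AddCommGroup Q] [Module R Q] [AddCommGroup D] [Module R D],
      #Λ < #W → Nontrivial D → Nonempty (N ≃ₗ[R] Q × (W →₀ D)) →
        ∃ I' : Type u, Retr R M (I' →₀ D)) (hV : #V = #N) : Nonempty (N ≃ₗ[R] (V →₀ M)) := by
  classical
  obtain ⟨_, C, hC1, hC2⟩ := kaplansky hΛ hM ι π h
  have hC3 := isInternal_ne_bot_iff.2 hC2
  have hJ := mk_index_of_isInternal hC3 (fun i => i.2) hΛ (fun i => hC1 i.1) hN
  obtain ⟨c, hc⟩ := exists_modCode (R := R) (Λ := Λ) (fun i : {i // C i ≠ ⊥} => C i.1)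
    (fun i => hC1 i.1)
  have e2 : (⨁ i : {i // C i ≠ ⊥}, C i.1) ≃ₗ[R] N :=
    LinearEquiv.ofBijective (coeLinearMap fun i : {i // C i ≠ ⊥} => C i.1) hC3
  have hpp : Nonempty ((Λ →₀ (Λ →₀ M)) ≃ₗ[R] (Λ →₀ M)) := power_power hΛ
  have hret : ∀ j : {i // C i ≠ ⊥}, Retr R (C j.1) (Λ →₀ M) := by
    intro j
    have h1 : Retr R (C j.1) (⨁ i : {i // C i ≠ ⊥}, C i.1) :=
      ⟨DirectSum.lof R _ (fun i : {i // C i ≠ ⊥} => C i.1) j,
        DirectSum.component R _ (fun i : {i // C i ≠ ⊥} => C i.1) j, fun x =>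
          DirectSum.component.lof_self R _ _⟩
    exact Retr.small hΛ (hC1 j.1) (h1.trans ((Retr.of_equiv e2).trans ⟨ι, π, h⟩))
  obtain ⟨e1⟩ := sum_equiv (R := R) hΛ (fun i : {i // C i ≠ ⊥} => C i.1) (Λ →₀ M) c
    (fun j hj => by
      obtain ⟨Q, _, _, ⟨f⟩⟩ := exists_split (R := R) (fun i : {i // C i ≠ ⊥} => C i.1) c hc j
      obtain ⟨I', hI'⟩ := hA Q (C j.1) {j' // c j' = c j} hj
        ((Submodule.nontrivial_iff_ne_bot).2 j.2) ⟨e2.symm.trans f⟩
      have h1 : Retr R (Λ →₀ M) (Λ →₀ C j.1) := (Retr.small hΛ hM hI').finsupp.trans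
        (Retr.of_equiv (power_power hΛ).some)
      have h2 : Retr R (Λ →₀ C j.1) (Λ →₀ M) := (hret j).finsupp.trans
        (Retr.of_equiv (power_power hΛ).some)
      exact h2.antisymm hΛ h1 hpp)
    (fun j => (hret j).absorb hΛ hpp) hc (mk_modCode_le hΛ hR) (by rw [hJ]; exact hN)
  have e3 : ({i // C i ≠ ⊥} →₀ (Λ →₀ M)) ≃ₗ[R] ({i // C i ≠ ⊥} × Λ →₀ M) :=
    (Finsupp.curryLinearEquiv R).symm
  have h4 : #({i // C i ≠ ⊥} × Λ) = #V := by
    rw [mk_prod, lift_id, lift_id, hJ, hV]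
    exact mul_eq_left ((hΛ.trans (cantor _).le).trans hN.le) ((cantor _).le.trans hN.le)
      (aleph0_pos.trans_le hΛ).ne'
  obtain ⟨e4⟩ := Cardinal.eq.1 h4
  exact ⟨e2.symm.trans (e1.trans (e3.trans (Finsupp.domLCongr e4)))⟩

end Vale.Agent.P307.H582
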