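import Vale.Agent.P307.Defs
import Mathlib.LinearAlgebra.Finsupp.Supported

universe u

namespace Vale.Agent.P307.H582

open FirstOrder Vale.Agent.P307

/-- The function symbols of the vocabulary of `R`-modules: zero, the multiplications by the elements
of `R`, and addition. -/
inductive ModFunc (R : Type u) : ℕ → Type u
  | zero : ModFunc R 0
  | smul (r : R) : ModFunc R 1
  | add : ModFunc R 2

/-- The vocabulary of `R`-modules. -/
def modLang (R : Type u) : Language.{u, u} := ⟨ModFunc R, fun _ => PEmpty⟩

/-- An `R`-module as a structure. -/
@[reducible] def modStr (R M : Type u) [Ring R] [AddCommGroup M] [Module R M] :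
    (modLang R).Structure M where
  funMap := fun {_} f v => match f with
    | .zero => 0
    | .smul r => r • v 0
    | .add => v 0 + v 1
  RelMap := fun r _ => PEmpty.elim r

/-- The members of `K` are `R`-modules, and `K` is closed under direct sums of copies of one
member. -/
structure IsModuleClass (R : Type u) [Ring R] (K : AEC (modLang R)) : Prop where
  module : ∀ (M : Type u) (s : (modLang R).Structure M), K.mem M →
    ∃ (_ : AddCommGroup M) (_ : Module R M), s = modStr R M
  copies : ∀ (M V : Type u) [AddCommGroup M] [Module R M] [Nonempty V],
    @AEC.mem _ K M (modStr R M) → @AEC.mem _ K (V →₀ M) (modStr R (V →₀ M))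

end Vale.Agent.P307.H582
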