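import Vale.Agent.P307.H582.ModF
import Vale.Agent.P307.H582.ModDefs
import Vale.Agent.P307.Bdl.B1

/-! P307 (helper582): growing direct sums of copies of one module inside classes of modules. -/

universe u

namespace Vale.Agent.P307.H582

open FirstOrder Language Cardinal Structure Set Vale.Agent.P307

section

variable {R : Type u} [Ring R]

attribute [local instance] modStr

/-- isomorphic modules are isomorphic structures -/
def linIso {A B : Type u} [AddCommGroup A] [Module R A] [AddCommGroup B] [Module R B]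
    (e : A ≃ₗ[R] B) : A ≃[modLang R] B where
  toEquiv := e.toEquiv
  map_fun' := by
    intro n f v
    rcases f with _ | r | _
    · exact map_zero e
    · exact map_smul e r (v 0)
    · exact map_add e (v 0) (v 1)
  map_rel' := by
    intro n r
    exact PEmpty.elim r

/-- injective linear maps are embeddings -/
def linEmb {A B : Type u} [AddCommGroup A] [Module R A] [AddCommGroup B] [Module R B]
    (e : A →ₗ[R] B) (he : Function.Injective e) : A ↪[modLang R] B where
  toFun := e
  inj' := he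
  map_fun' := by
    intro n f v
    rcases f with _ | r | _
    · exact map_zero e
    · exact map_smul e r (v 0)
    · exact map_add e (v 0) (v 1)
  map_rel' := by
    intro n r
    exact PEmpty.elim r

variable {Q B V W : Type u} [AddCommGroup Q] [Module R Q] [AddCommGroup B] [Module R B]

variable (R Q B) in
/-- the part of `Q × (V →₀ B)` over the set `W` of indices -/
def partSub (W : Set V) : (modLang R).Substructure (Q × (V →₀ B)) where
  carrier := {x | ∀ i, x.2 i ≠ 0 → i ∈ W}
  fun_mem := by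
    intro n f v hv
    rcases f with _ | r | _
    · intro i hi
      exact absurd rfl hi
    · intro i hi
      refine hv 0 i fun h => hi ?_
      change (r • (v 0)).2 i = 0
      rw [Prod.smul_snd, Finsupp.smul_apply, h, smul_zero]
    · intro i hi
      by_contra hW
      apply hi
      have h0 : (v 0).2 i = 0 := by
        by_contra h
        exact hW (hv 0 i h)
      have h1 : (v 1).2 i = 0 := by
        by_contra h
        exact hW (hv 1 i h)
      change (v 0 + v 1).2 i = 0
      rw [Prod.snd_add, Finsupp.add_apply, h0, h1, add_zero]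

theorem mem_partSub {W : Set V} {x : Q × (V →₀ B)} :
    x ∈ partSub R Q B W ↔ ∀ i, x.2 i ≠ 0 → i ∈ W := Iff.rfl

theorem partSub_mono {W W' : Set V} (h : W ⊆ W') : partSub R Q B W ≤ partSub R Q B W' :=
  fun _ hx i hi => h (hx i hi)

variable (R Q B) in
/-- the embedding given by an injection of the index sets -/
noncomputable def partEmb (φ : W → V) (hφ : Function.Injective φ) :
    (Q × (W →₀ B)) ↪[modLang R] (Q × (V →₀ B)) :=
  linEmb (LinearMap.prodMap LinearMap.id (Finsupp.lmapDomain B R φ)) (by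
    intro x y h
    have h1 := (Prod.ext_iff.1 h).1
    have h2 := (Prod.ext_iff.1 h).2
    exact Prod.ext h1 (Finsupp.mapDomain_injective hφ h2))

theorem partEmb_apply (φ : W → V) (hφ : Function.Injective φ) (x : Q × (W →₀ B)) :
    partEmb R Q B φ hφ x = (x.1, Finsupp.mapDomain φ x.2) := rfl

theorem range_partEmb (φ : W → V) (hφ : Function.Injective φ) :
    (partEmb R Q B φ hφ).toHom.range = partSub R Q B (range φ) := by
  ext x
  constructor
  · rintro ⟨y, rfl⟩ i hi
    by_contra hcon
    apply hi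
    exact Finsupp.mapDomain_of_notMem_range _ _ hcon
  · intro h
    refine ⟨(x.1, Finsupp.comapDomain φ x.2 hφ.injOn), ?_⟩
    change ((x.1, Finsupp.mapDomain φ (Finsupp.comapDomain φ x.2 hφ.injOn)) : Q × (V →₀ B)) = x
    rw [Finsupp.mapDomain_comapDomain φ hφ x.2 fun i hi => h i (Finsupp.mem_support_iff.1 hi)]

/-- support of a set -/
def suppSet (A : Set (Q × (V →₀ B))) : Set V := {i | ∃ x ∈ A, x.2 i ≠ 0}

theorem mk_suppSet_le {l : Cardinal.{u}} (hl : ℵ₀ ≤ l) (A : Set (Q × (V →₀ B))) (hA : #A ≤ l) :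
    #(suppSet A) ≤ l := by
  have h : suppSet A = ⋃ x : A, (x.1.2.support : Set V) := by
    ext i
    constructor
    · rintro ⟨x, hx, hi⟩
      exact mem_iUnion.2 ⟨⟨x, hx⟩, Finsupp.mem_support_iff.2 hi⟩
    · intro hi
      obtain ⟨x, hx⟩ := mem_iUnion.1 hi
      exact ⟨x.1, x.2, Finsupp.mem_support_iff.1 hx⟩
  rw [h]
  refine (mk_iUnion_le _).trans ?_
  refine (mul_le_mul' hA (ciSup_le' fun a => ?_)).trans (mul_eq_self hl).le
  exact (Cardinal.lt_aleph0_of_finite _).le.trans hl

variable {K : AEC (modLang R)} {l : Cardinal.{u}}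

theorem mod_shrink (hK : K.IsLS l) (hV : K.mem (Q × (V →₀ B))) (W : Set V) (hW : l < #W) :
    K.le (partSub R Q B W) := by
  have hl := hK.1
  have key : ∀ A : Set (Q × (V →₀ B)), A ⊆ partSub R Q B W → #A ≤ l →
      ∃ P : (modLang R).Substructure (Q × (V →₀ B)), K.le P ∧ A ⊆ P ∧ P ≤ partSub R Q B W ∧
        #P ≤ l := by
    intro A hA hAl
    obtain ⟨P, h1, h2, h3⟩ := hK.2.2 _ hV A
    have h4 : #(P : Set (Q × (V →₀ B))) ≤ l :=
      h3.trans (Cardinal.add_le_of_le hl hAl (_root_.le_refl _))
    obtain ⟨π, hπ1, hπ2⟩ := Gr.Am.exists_perm_move hl (suppSet A)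
      (suppSet (P : Set (Q × (V →₀ B)))) W (fun i ⟨x, hx, hi⟩ => hA hx i hi)
      (mk_suppSet_le hl _ hAl) (mk_suppSet_le hl _ h4) hW
    let e : (Q × (V →₀ B)) ≃ₗ[R] (Q × (V →₀ B)) :=
      (LinearEquiv.refl R Q).prodCongr (Finsupp.domLCongr π)
    have he : ∀ (x : Q × (V →₀ B)) i, (e x).2 i = x.2 (π.symm i) := fun x i => rfl
    refine ⟨P.map (linIso e).toHom, K.le_iso _ _ h1, ?_, ?_, ?_⟩
    · intro x hx
      refine ⟨x, h2 hx, ?_⟩
      change e x = x
      refine Prod.ext rfl (Finsupp.ext fun i => ?_)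
      rw [he]
      by_cases hi : x.2 i = 0
      · rw [hi]
        by_contra hne
        have h5 := hπ1 _ ⟨x, hx, hne⟩
        rw [π.apply_symm_apply] at h5
        rw [← h5] at hne
        exact hne hi
      · have h5 := hπ1 i ⟨x, hx, hi⟩
        rw [← h5, π.symm_apply_apply, h5]
    · rintro x ⟨y, hy, rfl⟩ i hi
      have hi' : y.2 (π.symm i) ≠ 0 := hi
      have h5 := hπ2 _ ⟨y, hy, hi'⟩
      rwa [π.apply_symm_apply] at h5
    · have : #(P.map (linIso e).toHom : Set (Q × (V →₀ B))) ≤ l := by
        rw [Substructure.coe_map]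
        exact mk_image_le.trans h4
      exact this
  let ι := {P : (modLang R).Substructure (Q × (V →₀ B)) // K.le P ∧ P ≤ partSub R Q B W ∧ #P ≤ l}
  have hne : Nonempty ι := by
    obtain ⟨P, h1, -, h2, h3⟩ := key ∅ (empty_subset _) (by simp)
    exact ⟨⟨P, h1, h2, h3⟩⟩
  have hdir : IsDirectedOrder ι := by
    refine ⟨fun P Q' => ?_⟩
    obtain ⟨T, h1, h2, h3, h4⟩ := key ((P.1 : Set (Q × (V →₀ B))) ∪ Q'.1)
      (union_subset P.2.2.1 Q'.2.2.1)
      ((mk_union_le _ _).trans (Cardinal.add_le_of_le hl P.2.2.2 Q'.2.2.2))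
    exact ⟨⟨T, h1, h3, h4⟩, fun x hx => h2 (Or.inl hx), fun x hx => h2 (Or.inr hx)⟩
  have h := AEC.le_iSup_directed (K := K) (fun P : ι => P.1) (fun P Q h => h) (fun P => P.2.1)
  convert h using 1
  apply le_antisymm
  · intro x hx
    obtain ⟨P, h1, h2, h3, h4⟩ := key {x} (singleton_subset_iff.2 hx) (by
      rw [mk_singleton]
      exact one_le_aleph0.trans hl)
    exact (le_iSup (fun P : ι => P.1) ⟨P, h1, h3, h4⟩) (h2 rfl)
  · exact iSup_le fun P => P.2.2.1

theorem mod_shrink_emb (hK : K.IsLS l) (hV : K.mem (Q × (V →₀ B))) (φ : W → V)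
    (hφ : Function.Injective φ) (hW : l < #W) : K.Emb (partEmb R Q B φ hφ) := by
  unfold AEC.Emb
  rw [range_partEmb]
  apply mod_shrink hK hV
  rwa [mk_range_eq φ hφ]

theorem mod_grow (hK : K.IsLS l) (hV : K.mem (Q × (V →₀ B))) (hVl : l < #V) (hW : l < #W) :
    K.mem (Q × (W →₀ B)) := by
  rcases le_total #W #V with h | h
  · obtain ⟨φ⟩ := Cardinal.le_def _ _ |>.1 h
    exact (mod_shrink_emb hK hV φ φ.injective hW).mem_left
  have hl := hK.1
  have hVi : ℵ₀ ≤ #V := hl.trans hVl.le
  let ι := {S : Set W // #S = #V}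
  have hex : ∀ A : Set W, #A ≤ #V → ∃ S : ι, A ⊆ S.1 := by
    intro A hA
    obtain ⟨φ⟩ := Cardinal.le_def _ _ |>.1 h
    refine ⟨⟨A ∪ range φ, ?_⟩, subset_union_left⟩
    apply _root_.le_antisymm
    · refine (mk_union_le _ _).trans (Cardinal.add_le_of_le hVi hA ?_)
      exact mk_range_le
    · refine (mk_range_eq φ φ.injective).symm.le.trans (mk_le_mk_of_subset subset_union_right)
  have hne : Nonempty ι := by
    obtain ⟨S, -⟩ := hex ∅ (by simp)
    exact ⟨S⟩
  have hdir : IsDirectedOrder ι := by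
    refine ⟨fun P Q => ?_⟩
    obtain ⟨T, hT⟩ := hex (P.1 ∪ Q.1) ((mk_union_le _ _).trans
      (Cardinal.add_le_of_le hVi P.2.le Q.2.le))
    exact ⟨T, subset_union_left.trans hT, subset_union_right.trans hT⟩
  have hmem : ∀ S : ι, K.mem (Q × (S.1 →₀ B)) := by
    intro S
    obtain ⟨φ⟩ := Cardinal.eq.1 S.2
    exact K.mem_iso (linIso ((LinearEquiv.refl R Q).prodCongr (Finsupp.domLCongr φ))).symm hV
  have hval : ∀ S : ι, Function.Injective (Subtype.val : S.1 → W) := fun S =>
    Subtype.val_injective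
  refine (AEC.mem_of_directed_union (K := K) (fun S : ι => partSub R Q B S.1)
    (fun S T h => partSub_mono h) ?_ ?_).1
  · intro S T hST
    have hST' : (S.1 : Set W) ⊆ T.1 := hST
    have h1 := range_partEmb (R := R) (Q := Q) (B := B) (Subtype.val : T.1 → W) (hval T)
    rw [Subtype.range_val] at h1
    let j : S.1 → T.1 := Set.inclusion hST'
    have hj : Function.Injective j := Set.inclusion_injective hST'
    have h2 : K.Emb (partEmb R Q B j hj) :=
      mod_shrink_emb hK (hmem T) j hj (by rw [S.2]; exact hVl)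
    have h3 : K.sle (partEmb R Q B j hj).toHom.range ⊤ := (AEC.sle_top (hmem T)).2 h2
    rw [← AEC.sle_map (partEmb R Q B (Subtype.val : T.1 → W) (hval T))] at h3
    rw [← Language.Hom.range_eq_map, h1] at h3
    have h4 : Substructure.map (partEmb R Q B (Subtype.val : T.1 → W) (hval T)).toHom
        (partEmb R Q B j hj).toHom.range = partSub R Q B S.1 := by
      have h5 := range_partEmb (R := R) (Q := Q) (B := B) (Subtype.val : S.1 → W) (hval S)
      rw [Subtype.range_val] at h5
      rw [← h5]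
      ext x
      constructor
      · rintro ⟨_, ⟨y, rfl⟩, rfl⟩
        refine ⟨y, ?_⟩
        change ((y.1, Finsupp.mapDomain Subtype.val y.2) : Q × (W →₀ B)) =
          (y.1, Finsupp.mapDomain Subtype.val (Finsupp.mapDomain j y.2))
        rw [← Finsupp.mapDomain_comp]
        rfl
      · rintro ⟨y, rfl⟩
        refine ⟨_, ⟨y, rfl⟩, ?_⟩
        change ((y.1, Finsupp.mapDomain Subtype.val (Finsupp.mapDomain j y.2)) : Q × (W →₀ B)) =
          (y.1, Finsupp.mapDomain Subtype.val y.2)
        rw [← Finsupp.mapDomain_comp]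
        rfl
    rw [h4] at h3
    exact h3
  · intro x
    obtain ⟨S, hS⟩ := hex (x.2.support : Set W)
      ((Cardinal.lt_aleph0_of_finite _).le.trans hVi)
    exact ⟨S, fun i hi => hS (Finsupp.mem_support_iff.2 hi)⟩

end

end Vale.Agent.P307.H582
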