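import Vale.Agent.P307.H582.ModD
import Vale.Agent.P307.H582.ModG
import Vale.Agent.P307.H582.Hanf

/-! P307 (helper582): categoricity of classes of modules. -/

universe u

namespace Vale.Agent.P307.H582

open FirstOrder Cardinal Vale.Agent.P307

section

variable {R : Type u} [Ring R]

/-- isomorphic modules are isomorphic structures -/
theorem iso_of_lin {A B : Type u} [AddCommGroup A] [Module R A] [AddCommGroup B] [Module R B]
    (e : A ≃ₗ[R] B) : Nonempty (@Language.Equiv (modLang R) A B (modStr R A) (modStr R B)) := by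
  letI := modStr R A
  letI := modStr R B
  refine ⟨{ toEquiv := e.toEquiv, map_fun' := ?_, map_rel' := ?_ }⟩
  · intro n f v
    rcases f with _ | r | _
    · exact map_zero e
    · exact map_smul e r (v 0)
    · exact map_add e (v 0) (v 1)
  · intro n r
    exact PEmpty.elim r

/-- isomorphic structures are isomorphic modules -/
theorem lin_of_iso {A B : Type u} [AddCommGroup A] [Module R A] [AddCommGroup B] [Module R B]
    (e : @Language.Equiv (modLang R) A B (modStr R A) (modStr R B)) : Nonempty (A ≃ₗ[R] B) := by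
  letI := modStr R A
  letI := modStr R B
  exact ⟨{ e.toEquiv with
    map_add' := fun x y => e.map_fun' (n := 2) ModFunc.add ![x, y]
    map_smul' := fun r x => e.map_fun' (n := 1) (ModFunc.smul r) ![x] }⟩

theorem mk_ring_le {K : AEC (modLang R)} {l : Cardinal.{u}} (hK : K.IsLS l) : #R ≤ l := by
  refine le_trans ?_ hK.2.1
  refine mk_le_of_injective (f := fun r : R =>
    (Sum.inl ⟨1, ModFunc.smul r⟩ : (modLang R).Symbols)) fun r s h => ?_
  have h1 : (⟨1, ModFunc.smul r⟩ : Σ n, (modLang R).Functions n) = ⟨1, ModFunc.smul s⟩ :=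
    Sum.inl_injective h
  have h2 : (ModFunc.smul r : ModFunc R 1) = ModFunc.smul s := eq_of_heq (Sigma.mk.inj h1).2
  injection h2

theorem powers_equiv {K : AEC (modLang R)} (hK : IsModuleClass R K) {κ : Cardinal.{u}}
    (hκ : ℵ₀ ≤ κ) (hcat : K.CategoricalIn κ) {A B : Type u} [AddCommGroup A] [Module R A]
    [AddCommGroup B] [Module R B] [Nontrivial A] [Nontrivial B] (hA : #A ≤ κ) (hB : #B ≤ κ)
    (hAK : @AEC.mem _ K A (modStr R A)) (hBK : @AEC.mem _ K B (modStr R B)) :
    Nonempty ((κ.out →₀ A) ≃ₗ[R] (κ.out →₀ B)) := by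
  have hout : #κ.out = κ := mk_out κ
  have : Infinite κ.out := by
    rw [infinite_iff, hout]
    exact hκ
  have h1 : #(κ.out →₀ A) = κ := by
    rw [mk_finsupp_of_infinite, hout, max_eq_left hA]
  have h2 : #(κ.out →₀ B) = κ := by
    rw [mk_finsupp_of_infinite, hout, max_eq_left hB]
  have : Nonempty κ.out := inferInstance
  have h3 := hcat.2
  obtain ⟨e⟩ := @h3 (κ.out →₀ A) (κ.out →₀ B) (modStr R _) (modStr R _)
    (hK.copies A κ.out hAK) (hK.copies B κ.out hBK) h1 h2
  exact lin_of_iso e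

/-- Downward transfer for classes of modules. -/
theorem module_down {K : AEC (modLang R)} (hK : IsModuleClass R K) {l κ ν : Cardinal.{u}}
    (hLS : K.IsLS l) (hcat : K.CategoricalIn κ) (hν : Order.succ (2 ^ l) ≤ ν) (hνκ : ν ≤ κ) :
    K.CategoricalIn ν := by
  classical
  rcases hνκ.eq_or_lt with rfl | hνκ'
  · exact hcat
  have hl := hLS.1
  have h2l : ℵ₀ ≤ (2 : Cardinal.{u}) ^ l := hl.trans (cantor _).le
  have h2ν : 2 ^ l < ν := (Order.lt_succ _).trans_le hν
  have hlν : l < ν := (cantor _).trans h2ν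
  have hν0 : ℵ₀ ≤ ν := hl.trans hlν.le
  have hκ0 : ℵ₀ ≤ κ := hν0.trans hνκ
  obtain ⟨P, sP, hP, hPκ⟩ := hcat.1
  obtain ⟨_, _, rfl⟩ := hK.module P sP hP
  letI := modStr R P
  have hPnt : Nontrivial P := by
    rw [← one_lt_iff_nontrivial, hPκ]
    exact one_lt_aleph0.trans_le hκ0
  obtain ⟨x, hx⟩ := exists_ne (0 : P)
  obtain ⟨S, hS1, hS2, hS3⟩ := hLS.2.2 P hP {x}
  have hSmem := (K.mem_of_le S hS1).1
  obtain ⟨_, _, hstr⟩ := hK.module S inferInstance hSmem
  have hM : @AEC.mem _ K S (modStr R S) := hstr ▸ hSmem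
  have h0 : ((0 : S) : P) = 0 := by
    have h1 : @Language.Structure.funMap (modLang R) S inferInstance 0 ModFunc.zero
        (fun i => i.elim0) = (0 : S) := by
      rw [hstr]
      rfl
    rw [← h1]
    rfl
  have hSnt : Nontrivial S := by
    refine ⟨⟨⟨x, hS2 rfl⟩, 0, fun h => hx ?_⟩⟩
    have h1 := congrArg (fun y : S => (y : P)) h
    exact h1.trans h0
  have hSl : #S ≤ l := by
    refine hS3.trans (add_le_of_le hl ?_ le_rfl)
    rw [mk_singleton]
    exact one_le_aleph0.trans hl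
  have hΛ : #l.out = l := mk_out l
  have hoν : #ν.out = ν := mk_out ν
  have hoκ : #κ.out = κ := mk_out κ
  have key : ∀ (N : Type u) [AddCommGroup N] [Module R N], @AEC.mem _ K N (modStr R N) →
      #N = ν → Nonempty (N ≃ₗ[R] (ν.out →₀ S)) := by
    intro N _ _ hN hNν
    have hNnt : Nontrivial N := by
      rw [← one_lt_iff_nontrivial, hNν]
      exact one_lt_aleph0.trans_le hν0
    obtain ⟨φ⟩ := powers_equiv hK hκ0 hcat (A := N) (B := S) (by rw [hNν]; exact hνκ)
      (hSl.trans (hlν.le.trans hνκ)) hN hM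
    have hne : Nonempty κ.out := by
      rw [← mk_ne_zero_iff, hoκ]
      exact (aleph0_pos.trans_le hκ0).ne'
    obtain ⟨i⟩ := hne
    refine summand_equiv (Λ := l.out) (V := ν.out) (by rw [hΛ]; exact hl)
      (by rw [hΛ]; exact mk_ring_le hLS) (by rw [hΛ]; exact hSl)
      (φ.toLinearMap ∘ₗ Finsupp.lsingle i) (Finsupp.lapply i ∘ₗ φ.symm.toLinearMap) ?_
      (by rw [hΛ, hNν]; exact h2ν) ?_ (by rw [hoν, hNν])
    · intro y
      simp
    · intro Q D W _ _ _ _ hW hD ⟨ψ⟩
      rw [hΛ] at hW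
      have hWne : Nonempty W := by
        rw [← mk_ne_zero_iff]
        exact (zero_le.trans_lt hW).ne'
      obtain ⟨w⟩ := hWne
      have hQν : #Q ≤ ν := by
        rw [← hNν]
        exact mk_le_of_injective (f := fun q : Q => ψ.symm (q, 0)) fun x y hxy =>
          (Prod.ext_iff.1 (ψ.symm.injective hxy)).1
      have hDν : #D ≤ ν := by
        rw [← hNν]
        exact mk_le_of_injective (f := fun d : D => ψ.symm (0, Finsupp.single w d)) fun x y hxy =>
          Finsupp.single_injective w (Prod.ext_iff.1 (ψ.symm.injective hxy)).2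
      have h1 : @AEC.mem _ K (Q × (W →₀ D)) (modStr R _) := by
        obtain ⟨e⟩ := iso_of_lin ψ
        exact @AEC.mem_iso _ K _ _ (modStr R _) (modStr R _) e hN
      have h2 : @AEC.mem _ K (Q × (κ.out →₀ D)) (modStr R _) :=
        mod_grow hLS h1 hW (by rw [hoκ]; exact hlν.trans_le hνκ)
      have : Infinite κ.out := by
        rw [infinite_iff, hoκ]
        exact hκ0
      have h3 : #(Q × (κ.out →₀ D)) = κ := by
        rw [mk_prod, lift_id, lift_id, mk_finsupp_of_infinite, hoκ,
          max_eq_left (hDν.trans hνκ)]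
        refine mul_eq_right hκ0 (hQν.trans hνκ) ?_
        rw [mk_ne_zero_iff]
        exact ⟨0⟩
      have h4 : #(κ.out →₀ S) = κ := by
        rw [mk_finsupp_of_infinite, hoκ, max_eq_left (hSl.trans (hlν.le.trans hνκ))]
      have h5 := hcat.2
      obtain ⟨e⟩ := @h5 (κ.out →₀ S) (Q × (κ.out →₀ D)) (modStr R _) (modStr R _)
        (hK.copies S κ.out hM) h2 h4 h3
      obtain ⟨f⟩ := lin_of_iso e
      refine ⟨κ.out, Retr.cancel (Q := Q) ?_ ?_ f⟩
      · rw [hoκ]
        exact (hl.trans_lt hlν).trans_le hνκ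
      · rw [hoκ]
        exact hQν.trans_lt hνκ'
  constructor
  · have : Infinite ν.out := by
      rw [infinite_iff, hoν]
      exact hν0
    refine ⟨ν.out →₀ S, modStr R _, hK.copies S ν.out hM, ?_⟩
    rw [mk_finsupp_of_infinite, hoν, max_eq_left (hSl.trans hlν.le)]
  · intro M N sM sN hM hN hMν hNν
    obtain ⟨_, _, rfl⟩ := hK.module M sM hM
    obtain ⟨_, _, rfl⟩ := hK.module N sN hN
    obtain ⟨e1⟩ := key M hM hMν
    obtain ⟨e2⟩ := key N hN hNν
    exact iso_of_lin (e1.trans e2.symm)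

end

/-- Q1 for classes of modules closed under direct sums of copies. -/
theorem module_classes (l : Cardinal.{u}) : ∃ μ : Cardinal.{u}, l ≤ μ ∧
    ∀ (R : Type u) [Ring R] (K : AEC (modLang R)), IsModuleClass R K → K.LS ≤ l →
      ∀ κ : Cardinal.{u}, μ ≤ κ → K.CategoricalIn κ →
        ∀ κ' : Cardinal.{u}, μ ≤ κ' → K.CategoricalIn κ' := by
  obtain ⟨μ, h1, h2, h3⟩ := uniform_of_downward l (Order.succ (2 ^ l))
  refine ⟨μ, h2, fun R _ K hK hl => h3 _ K hl fun κ ν hcat hν hνκ => ?_⟩
  exact module_down hK (AEC.isLS_of_LS_le hl) hcat hν hνκ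

end Vale.Agent.P307.H582
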