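import Vale.Agent.P307.H582.Defs

/-! P307 (helper582): auxiliary definitions for relational vocabularies. -/

universe u

namespace Vale.Agent.P307.H582

open FirstOrder Cardinal Vale.Agent.P307

variable {L : Language.{u, u}}

/-- free amalgams, relational form -/
def IsFreeAmalgamR {A : Type u} [L.Structure A] (R : Set A) (M : Type u) [L.Structure M] : Prop :=
  ∃ (V : Type u) (f : V → (A ↪[L] M)), Nonempty V ∧
    (∀ i j : V, ∀ r ∈ R, f i r = f j r) ∧
    (∀ (i j : V) (a b : A), f i a = f j b → i = j ∨ a ∈ R) ∧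
    (∀ x : M, ∃ i a, f i a = x) ∧
    ∀ (n : ℕ) (P : L.Relations n) (v : Fin n → M), Language.Structure.RelMap P v →
      ∃ i, ∀ k, ∃ a, f i a = v k

/-- freely generated classes, relational form -/
def FreelyGeneratedR (K : AEC L) (μ : Cardinal.{u}) : Prop :=
  ∃ (A : Type u) (_ : L.Structure A) (R : Set A), #A < μ ∧ R ≠ Set.univ ∧
    ∀ (M : Type u) [L.Structure M], μ ≤ #M → (K.mem M ↔ IsFreeAmalgamR (L := L) R M)

end Vale.Agent.P307.H582
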