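import Vale.Agent.P307.H582.Struct

/-! P307 (helper582): abstract elementary classes closed under disjoint unions of copies. -/

universe u

namespace Vale.Agent.P307.H582

open FirstOrder Language Cardinal Structure Set Vale.Agent.P307.Gr

variable {L : Language.{u, u}}

/-- The disjoint union of `ι` copies of `M`. -/
def Copies (M ι : Type u) : Type u := ι × M

/-- A relation holds for a tuple of the disjoint union if the tuple lies in one copy of `M` and the
relation holds there. -/
instance instCopies [L.IsRelational] (M ι : Type u) [L.Structure M] :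
    L.Structure (Copies M ι) where
  funMap f := isEmptyElim f
  RelMap P v := ∃ i, (∀ k, (v k).1 = i) ∧ RelMap P (fun k => (v k).2)

/-- `K` is closed under disjoint unions of copies of one member. -/
def CopiesClosed [L.IsRelational] (K : AEC L) : Prop :=
  ∀ (M : Type u) [L.Structure M], K.mem M → ∀ ι : Type u, Nonempty ι → K.mem (Copies M ι)

/-- the structure on `PEmpty ⊕ M` -/
@[reducible] def strEmpty [L.IsRelational] (M : Type u) [L.Structure M] :
    L.Structure (PEmpty.{u + 1} ⊕ M) where
  funMap f := isEmptyElim f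
  RelMap P v := RelMap P (fun k => Equiv.emptySum PEmpty.{u + 1} M (v k))

/-- The disjoint union of copies is an amalgam over the empty structure. -/
theorem exists_equiv_am [L.IsRelational] (M V : Type u) [L.Structure M] [hV : Nonempty V] :
    letI := strEmpty (L := L) M
    Nonempty (Copies M V ≃[L] Am PEmpty.{u + 1} M V) := by
  letI := strEmpty (L := L) M
  refine ⟨{ toFun := fun x => (Sum.inr x : PEmpty ⊕ (V × M)), invFun := fun x => ?_, left_inv := ?_,
            right_inv := ?_, map_fun' := fun f => isEmptyElim f, map_rel' := ?_ }⟩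
  · exact Sum.elim (fun z => z.elim) (fun z => z) x
  · intro x
    rfl
  · intro x
    rcases x with x | x
    · exact x.elim
    · rfl
  · intro n P v
    constructor
    · rintro ⟨h1, h2⟩
      rcases n with _ | n
      · exact ⟨Classical.choice hV, fun k => k.elim0, h1⟩
      · exact ⟨(v 0).1, fun k => h2 k 0, h1⟩
    · rintro ⟨i, h1, h2⟩
      exact ⟨h2, fun k l => (h1 k).trans (h1 l).symm⟩

/-- A member of `K` of size `κ` has small nonempty strong substructures. -/
theorem exists_small {K : AEC L} {l : Cardinal.{u}} (hK : K.IsLS l) {M : Type u} [L.Structure M]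
    (hM : K.mem M) [hne : Nonempty M] : ∃ S : L.Substructure M, K.le S ∧ Nonempty S ∧ #S ≤ l := by
  obtain ⟨x⟩ := hne
  obtain ⟨S, h1, h2, h3⟩ := hK.2.2 M hM {x}
  refine ⟨S, h1, ⟨⟨x, h2 rfl⟩⟩, h3.trans ?_⟩
  refine Cardinal.add_le_of_le hK.1 ?_ (_root_.le_refl _)
  rw [mk_singleton]
  exact one_le_aleph0.trans hK.1

/-- A class containing a free amalgam of `κ` copies of a small structure. -/
theorem fgen_of_mem [L.IsRelational] {K : AEC L} {l κ : Cardinal.{u}}
    (hK : K.IsLS l) (hκ : muF l ≤ κ) (hcat : K.CategoricalIn κ) {R E V : Type u}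
    [L.Structure (R ⊕ E)] [Nonempty E] (hR : #R < muF l) (hE : #E < muF l) (hV : #V = κ)
    (hmem : K.mem (Am R E V)) : FGen K (muF l) := by
  refine fgen_of_no hK hκ hcat fun N _ hN hNκ => ?_
  exact no_of_mem hcat (hK.1.trans_lt ((lt_muF l).trans_le hκ)) (hR.trans_le hκ) (hE.trans_le hκ)
    hV hmem N hN hNκ

theorem fgen_of_copies [L.IsRelational] {K : AEC L} {l κ : Cardinal.{u}}
    (hK : K.IsLS l) (hcop : CopiesClosed K) (hκ : muF l ≤ κ) (hcat : K.CategoricalIn κ) :
    FGen K (muF l) := by
  obtain ⟨M, strM, hM, hMκ⟩ := hcat.1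
  have hκ0 : ℵ₀ < κ := hK.1.trans_lt ((lt_muF l).trans_le hκ)
  have hMne : Nonempty M := by
    rw [← mk_ne_zero_iff, hMκ]
    exact (aleph0_pos.trans hκ0).ne'
  obtain ⟨S, hS1, hS2, hS3⟩ := exists_small hK hM
  have hVne : Nonempty κ.out := by
    rw [← mk_ne_zero_iff, mk_out]
    exact (aleph0_pos.trans hκ0).ne'
  have h1 := hcop S (K.mem_of_le S hS1).1 κ.out hVne
  letI := strEmpty (L := L) S
  obtain ⟨e⟩ := exists_equiv_am (L := L) S κ.out
  refine fgen_of_mem (R := PEmpty.{u + 1}) (E := S) (V := κ.out) hK hκ hcat ?_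
    (hS3.trans_lt (lt_muF l)) (mk_out κ) (K.mem_iso e h1)
  rw [mk_pempty]
  exact aleph0_pos.trans (hK.1.trans_lt (lt_muF l))

end Vale.Agent.P307.H582
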